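import Vale.Agent.P196.Full.Gen

/-!
# P196: finite presentation of the universal group modulo a centre: the statement

All that the finite system of relations has to achieve: in the group presented by finitely many
true relations `R₀`, every relator of the universal group becomes central.
-/

namespace Vale.Agent.P196.Full

variable {X : Type} [TopologicalSpace X]

/-- The universal group is finitely presented up to a central kernel: finitely many generators and
true relations `R₀`, and words for all generators making every relator of the universal group
central in the group presented by `R₀`. -/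
def ProjFP (S : Sys X) (n : ℕ) : Prop :=
  ∃ (k : ℕ) (ι : Fin k → Gen X n) (R₀ : Set (FreeGroup (Fin k))), R₀.Finite ∧
    (∀ w ∈ R₀, evalWord S (FreeGroup.map ι w) = 1) ∧
    ∃ φ₀ : Gen X n → FreeGroup (Fin k),
      (∀ g, evalWord S (FreeGroup.map ι (φ₀ g)) = g.perm S) ∧
      (∀ i, PresentedGroup.mk R₀ ((φ₀ (ι i))⁻¹ * FreeGroup.of i) ∈
        Subgroup.center (PresentedGroup R₀)) ∧
      ∀ w, URel S w → PresentedGroup.mk R₀ (FreeGroup.lift φ₀ w) ∈
        Subgroup.center (PresentedGroup R₀)

end Vale.Agent.P196.Full
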