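import Vale.Agent.P196.Full.Lift.Central.Colour

/-!
# P196: the lifts satisfy the relators of the universal group

In a quotient killing the defects of all clopen sets the lifts satisfy every relator: a relator of a
frame is split over the fibres of a fine phase, where the frame has all colours and the presentation
of its alternating group applies.
-/

namespace Vale.Agent.P196.Full.Lift

variable {X : Type} [TopologicalSpace X] {n : ℕ} {S : Sys X}

/-- Restricting every generator of a word to one clopen set. -/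
def restr (A : Clo X) : FreeGroup (Gen X n) →* FreeGroup (Gen X n) :=
  FreeGroup.map fun g => g.withU A

variable (S) in
/-- The points moved by the frame of `A` along `F`. -/
def reg (A : Set X) (F : Finset (Off n)) : Set (Pt X n) :=
  {z | ∃ a ∈ F, z.2 = a.2 ∧ S.sh (-a.1) z.1 ∈ A}

theorem supp_subset_reg {V : Clo X} {F : Finset (Off n)} {g : Gen X n} (hg : g ∈ frameGens V F)
    (A : Clo X) : (g.withU A).supp S ⊆ reg S (A : Set X) F := by
  intro z hz
  obtain ⟨a, ha, hcol, hA⟩ := (Gen.mem_supp_iff _ _).1 hz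
  refine ⟨a, ?_, hcol, hA⟩
  rcases ha with rfl | rfl | rfl
  exacts [hg.2.1, hg.2.2.1, hg.2.2.2]

theorem disjoint_reg {V A B : Set X} {F : Finset (Off n)} (hF : S.Separated V F) (hA : A ⊆ V)
    (hB : B ⊆ V) (hd : Disjoint A B) : Disjoint (reg S A F) (reg S B F) := by
  refine Set.disjoint_left.2 ?_
  rintro z ⟨a, ha, hza, hzA⟩ ⟨b, hb, hzb, hzB⟩
  by_cases hab : a = b
  · subst hab; exact Set.disjoint_left.1 hd hzA hzB
  · exact Set.disjoint_left.1 (hF a ha b hb hab (hza.symm.trans hzb)) (hA hzA) (hB hzB)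

theorem evalWord_restr_fix {V : Clo X} {F : Finset (Off n)} (A : Clo X)
    {w : FreeGroup (Gen X n)} (hw : w ∈ Subgroup.closure (FreeGroup.of '' frameGens V F))
    {z : Pt X n} (hz : z ∉ reg S (A : Set X) F) : evalWord S (restr A w) z = z := by
  induction hw using Subgroup.closure_induction with
  | mem x hx =>
    obtain ⟨g, hg, rfl⟩ := hx
    rw [restr, FreeGroup.map.of, evalWord, FreeGroup.lift_apply_of]
    exact Gen.perm_apply_of_notMem _ fun h => hz (supp_subset_reg hg A h)
  | one => simp
  | mul x y _ _ hx hy => rw [map_mul, map_mul, Equiv.Perm.mul_apply, hy, hx]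
  | inv x _ hx => rw [map_inv, map_inv, Equiv.Perm.inv_def, Equiv.symm_apply_eq, hx]

/-- An additive commuting assignment to the generators splits over disjoint sets. -/
theorem restr_add {G : Type*} [Group G] (φ : Gen X n → G)
    (hadd : ∀ (g : Gen X n) (A B : Clo X), Disjoint (A : Set X) (B : Set X) →
      (g.U : Set X) = (A : Set X) ∪ (B : Set X) → φ g = φ (g.withU A) * φ (g.withU B))
    (hcomm : ∀ g h, Disjoint (g.supp S) (h.supp S) → Commute (φ g) (φ h))
    {V C A B : Clo X} {F : Finset (Off n)} (hF : S.Separated (V : Set X) F)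
    (hA : (A : Set X) ⊆ V) (hB : (B : Set X) ⊆ V) (hd : Disjoint (A : Set X) (B : Set X))
    (hu : (C : Set X) = (A : Set X) ∪ (B : Set X))
    {w : FreeGroup (Gen X n)} (hw : w ∈ Subgroup.closure (FreeGroup.of '' frameGens V F)) :
    FreeGroup.lift φ (restr C w) =
      FreeGroup.lift φ (restr A w) * FreeGroup.lift φ (restr B w) := by
  have key : ∀ x ∈ Subgroup.closure (FreeGroup.of '' frameGens V F),
      ∀ y ∈ Subgroup.closure (FreeGroup.of '' frameGens V F),
        Commute (FreeGroup.lift φ (restr B x)) (FreeGroup.lift φ (restr A y)) := by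
    intro x hx
    induction hx using Subgroup.closure_induction with
    | one => intro y _; simp
    | mul a b _ _ ha hb =>
      intro y hy; rw [map_mul, map_mul]; exact (ha y hy).mul_left (hb y hy)
    | inv a _ ha => intro y hy; rw [map_inv, map_inv]; exact (ha y hy).inv_left
    | mem a ha =>
      intro y hy
      induction hy using Subgroup.closure_induction with
      | one => simp
      | mul b c _ _ hb hc => rw [map_mul, map_mul]; exact hb.mul_right hc
      | inv b _ hb => rw [map_inv, map_inv]; exact hb.inv_right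
      | mem b hb =>
        obtain ⟨g, hg, rfl⟩ := ha
        obtain ⟨h, hh, rfl⟩ := hb
        simp only [restr, FreeGroup.map.of, FreeGroup.lift_apply_of]
        exact hcomm _ _ (((disjoint_reg hF hA hB hd).symm.mono_left (supp_subset_reg hg B)).mono_right
          (supp_subset_reg hh A))
  induction hw using Subgroup.closure_induction with
  | one => simp
  | mem x hx =>
    obtain ⟨g, -, rfl⟩ := hx
    simp only [restr, FreeGroup.map.of, FreeGroup.lift_apply_of]
    exact hadd (g.withU C) A B hd hu
  | mul x y hx' hy' hx hy =>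
    simp only [map_mul, hx, hy]
    rw [mul_assoc, ← mul_assoc (FreeGroup.lift φ (restr B x)), (key x hx' y hy').eq]
    simp only [mul_assoc]
  | inv x hx' hx =>
    simp only [map_inv, hx, mul_inv_rev]
    exact ((key x hx' x hx').inv_inv).eq

theorem perm_add (g : Gen X n) (A B : Clo X) (hd : Disjoint (A : Set X) (B : Set X))
    (hu : (g.U : Set X) = (A : Set X) ∪ (B : Set X)) :
    g.perm S = (g.withU A).perm S * (g.withU B).perm S := by
  rw [← ueval_ugen (S := S) g, ugen_add g A B hd hu, map_mul, ueval_ugen, ueval_ugen]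

theorem perm_commute (g h : Gen X n) (hd : Disjoint (g.supp S) (h.supp S)) :
    Commute (g.perm S) (h.perm S) := by
  simpa using (ugen_commute g h hd).map (ueval S)

theorem evalWord_restr_left {V C A B : Clo X} {F : Finset (Off n)} (hF : S.Separated (V : Set X) F)
    (hA : (A : Set X) ⊆ V) (hB : (B : Set X) ⊆ V) (hd : Disjoint (A : Set X) (B : Set X))
    (hu : (C : Set X) = (A : Set X) ∪ (B : Set X)) {w : FreeGroup (Gen X n)}
    (hw : w ∈ Subgroup.closure (FreeGroup.of '' frameGens V F))
    (h : evalWord S (restr C w) = 1) : evalWord S (restr A w) = 1 := by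
  refine Equiv.ext fun z => ?_
  by_cases hz : z ∈ reg S (A : Set X) F
  · have e : evalWord S (restr C w) = evalWord S (restr A w) * evalWord S (restr B w) :=
      restr_add (Gen.perm S) perm_add perm_commute hF hA hB hd hu hw
    have e2 := congrArg (fun σ : Equiv.Perm (Pt X n) => σ z) (e.symm.trans h)
    simp only [Equiv.Perm.mul_apply, Equiv.Perm.one_apply] at e2
    rw [evalWord_restr_fix B hw (Set.disjoint_left.1 (disjoint_reg hF hA hB hd) hz)] at e2
    exact e2
  · exact evalWord_restr_fix A hw hz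

/-- Generators of a frame as homomorphic images. -/
theorem frameHom_alt3 {V : Clo X} {L : Finset Lat} (hs : S.SepV (V : Set X) L) (hn : 4 ≤ n)
    {p q r : ↥L × Fin n} (g : Gen X n) (hU : g.U = V) (hp : g.p = (↑p.1, p.2))
    (hq : g.q = (↑q.1, q.2)) (hr : g.r = (↑r.1, r.2)) :
    frameHom hs hn (alt3 p q r) = ugen S g := by
  have h : D3 p q r := ⟨fun e => g.tri.1 (by rw [hp, hq, e]), fun e => g.tri.2.2 (by rw [hp, hr, e]),
    fun e => g.tri.2.1 (by rw [hq, hr, e])⟩
  refine ((frameHom_eq_iff hs hn _ (Subgroup.subset_closure ⟨g, mem_frameGens.2 ⟨hU, ?_, ?_, ?_⟩,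
    rfl⟩)).2 ?_).symm
  · rw [hp]; exact p.1.2
  · rw [hq]; exact q.1.2
  · rw [hr]; exact r.1.2
  · rw [ueval_ugen, alt3_val h, perm_eq_framePerm hs p q r g hU hp hq hr]

theorem framePerm_injective {V : Set X} {L : Finset Lat} (hs : S.SepV V L) (hV : V.Nonempty)
    {σ : Equiv.Perm (↥L × Fin n)} (h : framePerm hs σ = 1) : σ = 1 := by
  obtain ⟨x, hx⟩ := hV
  refine Equiv.ext fun a => ?_
  have e := framePerm_apply hs σ a ⟨x, hx⟩
  rw [h, Equiv.Perm.one_apply] at e
  have := (frameEmb (n := n) hs).injective (a₁ := (a, ⟨x, hx⟩)) (a₂ := (σ a, ⟨x, hx⟩)) e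
  exact (congrArg Prod.fst this).symm

variable {H Q H' : Type*} [Group H] [Group Q] [Group H'] (P : Proj (UGroup S n) H Q) (hn : 8 ≤ n)
  (r : H →* H')

theorem lift3_empty (g : Gen X n) (h : (g.U : Set X) = ∅) (hn : 8 ≤ n) : lift3 P g = 1 := by
  have := lift3_add P hn g g.U g.U (by rw [h]; exact disjoint_bot_left) (by rw [h, Set.union_empty])
  exact left_eq_mul.1 this

include hn

/-- A relator inside a frame with all colours. -/
theorem frame_piece (hr : ∀ V, r (cdef P hn V) = 1) {A : Clo X} {L : Finset Lat} (h0 : (0 : Lat) ∈ L)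
    (hs : S.SepV (A : Set X) L) {w : FreeGroup (Gen X n)}
    (hw : w ∈ Subgroup.closure (FreeGroup.of '' frameGens A (L ×ˢ Finset.univ)))
    (h1 : evalWord S w = 1) : r (FreeGroup.lift (lift3 P) w) = 1 := by
  classical
  rcases (A : Set X).eq_empty_or_nonempty with hA | hA
  · suffices FreeGroup.lift (lift3 P) w = 1 by rw [this, map_one]
    refine (MonoidHom.mem_ker).1 ((Subgroup.closure_le _).2 ?_ hw)
    rintro _ ⟨g, hg, rfl⟩
    rw [SetLike.mem_coe, MonoidHom.mem_ker, FreeGroup.lift_apply_of]
    exact lift3_empty P g (by rw [hg.1, hA]) hn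
  have hn4 : 4 ≤ n := by omega
  let E := frameHom (n := n) hs hn4
  have hα : 8 ≤ Fintype.card (↥L × Fin n) :=
    (card8 hn).trans (Fintype.card_le_of_injective (fun c => ((⟨0, h0⟩ : ↥L), c))
      fun a b e => (Prod.mk.inj e).2)
  -- colour frames inside the frame
  have hE : ∀ (o : Fin n → Lat) (ho : ∀ c, o c ∈ L) (a b c : Fin n), D3 a b c →
      E (alt3 ((⟨o a, ho a⟩ : ↥L), a) ((⟨o b, ho b⟩ : ↥L), b) ((⟨o c, ho c⟩ : ↥L), c)) =
        colHom S o A (alt3 a b c) := by
    intro o ho a b c h
    rw [colHom_alt3 _ _ h]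
    exact frameHom_alt3 hs hn4 (genC o A a b c h) rfl rfl rfl rfl
  have inj : ∀ (o : Fin n → Lat) (ho : ∀ c, o c ∈ L),
      Function.Injective fun c => ((⟨o c, ho c⟩ : ↥L), c) := fun o ho a b e => (Prod.mk.inj e).2
  have hax : Axioms fun a b c => r (theta P E a b c) := by
    refine axioms_theta P E hα r fun a b c d h => ?_
    have hb := d4_base (n := n) hn
    rw [defect_conj P E hα h (a' := ((⟨0, h0⟩ : ↥L), (⟨0, by omega⟩ : Fin n)))
      (b' := (⟨0, h0⟩, ⟨1, by omega⟩)) (c' := (⟨0, h0⟩, ⟨2, by omega⟩))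
      (d' := (⟨0, h0⟩, ⟨3, by omega⟩)) (by simp [D4, D3, Fin.ext_iff]),
      defect_map P (colHom S (fun _ => 0) A) E _ (inj (fun _ => 0) fun _ => h0)
        (hE (fun _ => 0) fun _ => h0) (card8 hn) hb]
    exact hr A
  let pt : Off n → ↥L × Fin n := fun a => if h : a.1 ∈ L then (⟨a.1, h⟩, a.2) else (⟨0, h0⟩, a.2)
  have hpt : ∀ a : Off n, a.1 ∈ L → ((pt a).1 : Lat) = a.1 ∧ (pt a).2 = a.2 := fun a ha => by
    simp [pt, ha]
  let B : FreeGroup (Gen X n) →* Equiv.Perm (↥L × Fin n) :=
    FreeGroup.lift fun g => cyc3 (pt g.p) (pt g.q) (pt g.r)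
  have hgen : ∀ g ∈ frameGens A (L ×ˢ (Finset.univ : Finset (Fin n))),
      D3 (pt g.p) (pt g.q) (pt g.r) ∧
      r (lift3 P g) = r (theta P E (pt g.p) (pt g.q) (pt g.r)) ∧
      g.perm S = framePerm hs (cyc3 (pt g.p) (pt g.q) (pt g.r)) := by
    intro g hg
    obtain ⟨hU, hp, hq, hr'⟩ := mem_frameGens.1 hg
    have ep := hpt _ hp
    have eq := hpt _ hq
    have er := hpt _ hr'
    refine ⟨⟨fun e => g.tri.1 (by rw [← ep.2, ← eq.2, e]), fun e => g.tri.2.2 (by rw [← ep.2, ← er.2, e]),
      fun e => g.tri.2.1 (by rw [← eq.2, ← er.2, e])⟩, ?_, ?_⟩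
    · have ho : ∀ c, sec g c ∈ L := fun c => by
        unfold sec; split_ifs <;> assumption
      have ept : ∀ a : Off n, a.1 ∈ L → sec g a.2 = a.1 →
          ((⟨sec g a.2, ho a.2⟩ : ↥L), a.2) = pt a := fun a ha e => by
        refine Prod.ext (Subtype.ext ?_) (hpt a ha).2.symm
        rw [(hpt a ha).1]; exact e
      have e := theta_map P (colHom S (sec g) A) E _ (inj (sec g) ho) (hE (sec g) ho) (card8 hn)
        (Gen.d3 g)
      simp only [ept g.p hp (by simp [sec]), ept g.q hq (by simp [sec, g.tri.1.symm]),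
        ept g.r hr' (by simp [sec, g.tri.2.1.symm, g.tri.2.2.symm])] at e
      rw [e, lift3, hU]
    · refine perm_eq_framePerm hs _ _ _ g hU ?_ ?_ ?_
      exacts [Prod.ext ep.1.symm ep.2.symm, Prod.ext eq.1.symm eq.2.symm, Prod.ext er.1.symm er.2.symm]
  refine word_trivial hax (r.comp (FreeGroup.lift (lift3 P))) B _ ?_ hw ?_
  · rintro _ ⟨g, hg, rfl⟩
    exact ⟨_, _, _, (hgen g hg).1, by simp [(hgen g hg).2.1], by simp [B]⟩
  · refine framePerm_injective hs hA ?_
    rw [← h1]
    refine MonoidHom.eqOn_closure (f := (framePerm hs).comp B) (g := evalWord S) ?_ hw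
    rintro _ ⟨g, hg, rfl⟩
    simp only [MonoidHom.comp_apply, B, evalWord, FreeGroup.lift_apply_of]
    exact (hgen g hg).2.2.symm

/-- The lifts satisfy every relator once the defects are killed. -/
theorem lift3_urel (T : Tower S) (hr : ∀ V, r (cdef P hn V) = 1) {w : FreeGroup (Gen X n)}
    (h : URel S w) : r (FreeGroup.lift (lift3 P) w) = 1 := by
  cases h with
  | add g a b ha hb hd hu =>
    simp only [map_mul, map_inv, FreeGroup.lift_apply_of]
    rw [inv_mul_eq_one, ← map_mul, lift3_add P hn g a.U b.U (by assumption) (by assumption),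
      show g.withU a.U = a from Gen.eq_mk rfl ha.1.symm ha.2.1.symm ha.2.2.symm,
      show g.withU b.U = b from Gen.eq_mk rfl hb.1.symm hb.2.1.symm hb.2.2.symm]
  | shift g h v hU hp hq hr' =>
    simp only [map_mul, map_inv, FreeGroup.lift_apply_of]
    rw [inv_mul_eq_one, lift3_shift P hn g h v (by assumption) hp hq hr']
  | comm g h hd =>
    simp only [map_mul, map_inv, FreeGroup.lift_apply_of]
    rw [((lift3_comm P hn g h (by assumption)).map r).eq, mul_inv_cancel_right, mul_inv_cancel]
  | frame V F hF w hw h1 =>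
    classical
    set L : Finset Lat := insert 0 (F.image Prod.fst)
    obtain ⟨m, hm⟩ := T.exists_sep L
    have : NeZero (T.W m) := ⟨(T.W_pos m).ne'⟩
    have piece : ∀ A : Clo X, (A : Set X) ⊆ V → ConstOn (T.phase m) (A : Set X) →
        evalWord S (restr A w) = 1 → r (FreeGroup.lift (lift3 P) (restr A w)) = 1 := by
      intro A hA hc he
      refine frame_piece P hn r hr (L := L) (Finset.mem_insert_self 0 _) (hm m le_rfl _ hc) ?_ he
      have := Subgroup.mem_map_of_mem (restr A) (by assumption :
        w ∈ Subgroup.closure (FreeGroup.of '' frameGens V F))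
      rw [MonoidHom.map_closure, ← Set.image_comp] at this
      refine Subgroup.closure_mono ?_ this
      rintro _ ⟨g, hg, rfl⟩
      have mem : ∀ a : Off n, a ∈ F → a.1 ∈ L :=
        fun a ha => Finset.mem_insert_of_mem (Finset.mem_image_of_mem _ ha)
      exact ⟨g.withU A, mem_frameGens.2 ⟨rfl, mem _ hg.2.1, mem _ hg.2.2.1, mem _ hg.2.2.2⟩,
        by simp [restr]⟩
    have main : ∀ s : Finset (ZMod (T.W m) × ZMod (T.W m)), ∀ C : Clo X, (C : Set X) ⊆ V →
        (∀ x ∈ C, T.phase m x ∈ s) → evalWord S (restr C w) = 1 →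
        r (FreeGroup.lift (lift3 P) (restr C w)) = 1 := by
      intro s
      induction s using Finset.induction_on with
      | empty => exact fun C hC hx he => piece C hC (fun x h => absurd (hx x h) (Finset.notMem_empty _)) he
      | @insert a s ha ih =>
        intro C hC hx he
        set A : Clo X := C ⊓ ⟨{x | T.phase m x = a}, T.isClopen_fiber m a⟩
        set B : Clo X := C \ A
        have hAC : (A : Set X) ⊆ C := Set.inter_subset_left
        have hBC : (B : Set X) ⊆ C := Set.sdiff_subset
        have hd : Disjoint (A : Set X) (B : Set X) := disjoint_sdiff_self_right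
        have hu : (C : Set X) = (A : Set X) ∪ (B : Set X) := (Set.union_sdiff_cancel hAC).symm
        have hF' : S.Separated (V : Set X) F := by assumption
        have hw' : w ∈ Subgroup.closure (FreeGroup.of '' frameGens V F) := by assumption
        rw [restr_add (lift3 P) (lift3_add P hn) (lift3_comm P hn) hF' (hAC.trans hC) (hBC.trans hC)
          hd hu hw', map_mul,
          piece A (hAC.trans hC) (fun x h y h' => h.2.trans h'.2.symm)
            (evalWord_restr_left hF' (hAC.trans hC) (hBC.trans hC) hd hu hw' he),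
          ih B (hBC.trans hC) (fun x h => (Finset.mem_insert.1 (hx x h.1)).resolve_left
              fun e => h.2 ⟨h.1, e⟩)
            (evalWord_restr_left hF' (hBC.trans hC) (hAC.trans hC) hd.symm
              (by rw [hu, Set.union_comm]) hw' he), one_mul]
    have hid : restr V w = w := by
      refine MonoidHom.eqOn_closure (f := restr V) (g := MonoidHom.id _) ?_ (by assumption :
        w ∈ Subgroup.closure (FreeGroup.of '' frameGens V F))
      rintro _ ⟨g, hg, rfl⟩
      simp only [restr, FreeGroup.map.of, MonoidHom.id_apply]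
      exact congrArg _ (Gen.eq_mk (congrArg _ hg.1.symm) rfl rfl rfl)
    have := main Finset.univ V subset_rfl (fun x _ => Finset.mem_univ _) (by rw [hid]; assumption)
    rwa [hid] at this

end Vale.Agent.P196.Full.Lift
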