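import Vale.Agent.P196.Full.Coinv.Criterion
import Vale.Agent.P196.Full.Lift.Central.Spec
import Vale.Agent.P196.Full.Lift.Central.Relators

/-!
# P196: the universal group is finitely presented

A presentation modulo the centre and finite-dimensional coinvariants give a presentation: the
defects are a quotient of the coinvariants.
-/

namespace Vale.Agent.P196.Full.Lift

open scoped symmDiff

variable {X : Type} [TopologicalSpace X] {n : ℕ} {S : Sys X} {H Q H' : Type*} [Group H] [Group Q]
  [Group H'] (P : Proj (UGroup S n) H Q) (hn : 8 ≤ n) (r : H →* H')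

/-- The clopen set where a function is one. -/
def oneSet (f : LocallyConstant X (ZMod 2)) : Clo X :=
  ⟨{x | f x = 1}, f.isLocallyConstant.isClopen_fiber 1⟩

theorem cdef_symmDiff (A B C : Clo X) (h : (C : Set X) = (A : Set X) ∆ (B : Set X)) :
    cdef P hn C = cdef P hn A * cdef P hn B := by
  have hC : cdef P hn C = cdef P hn (A \ B) * cdef P hn (B \ A) :=
    cdef_add P hn (disjoint_sdiff_sdiff : Disjoint ((A : Set X) \ B) ((B : Set X) \ A))
      (h.trans rfl)
  have hA : cdef P hn A = cdef P hn (A \ B) * cdef P hn (A ⊓ B) :=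
    cdef_add P hn (Set.disjoint_sdiff_inter : Disjoint ((A : Set X) \ B) ((A : Set X) ∩ B))
      (Set.sdiff_union_inter _ _).symm
  have hB : cdef P hn B = cdef P hn (A ⊓ B) * cdef P hn (B \ A) :=
    cdef_add P hn (Set.disjoint_left.2 fun x h h' => h'.2 h.1 :
      Disjoint ((A : Set X) ∩ B) ((B : Set X) \ A))
      (by show (B : Set X) = (A : Set X) ∩ B ∪ (B : Set X) \ A
          rw [Set.inter_comm]; exact (Set.inter_union_sdiff _ _).symm)
  rw [hC, hA, hB, mul_assoc, ← mul_assoc (cdef P hn (A ⊓ B)), cdef_mul_self P hn, one_mul]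

/-- The functions with trivial defect. -/
noncomputable def killed : Submodule (ZMod 2) (LocallyConstant X (ZMod 2)) where
  carrier := {f | r (cdef P hn (oneSet f)) = 1}
  zero_mem' := by
    have e : cdef P hn (oneSet (0 : LocallyConstant X (ZMod 2))) =
        cdef P hn (oneSet 0) * cdef P hn (oneSet 0) :=
      cdef_symmDiff P hn _ _ _ (by simp [oneSet])
    show r _ = 1
    rw [e, cdef_mul_self P hn, map_one]
  add_mem' {f g} hf hg := by
    show r _ = 1
    rw [cdef_symmDiff P hn (oneSet f) (oneSet g) (oneSet (f + g)), map_mul, hf, hg, one_mul]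
    ext x
    have : ∀ a b : ZMod 2, (a + b = 1) ↔ (a = 1 ∧ ¬b = 1 ∨ b = 1 ∧ ¬a = 1) := by decide
    exact this (f x) (g x)
  smul_mem' c f hf := by
    have : c = 0 ∨ c = 1 := by revert c; decide
    rcases this with rfl | rfl
    · have e : cdef P hn (oneSet ((0 : ZMod 2) • f)) =
          cdef P hn (oneSet ((0 : ZMod 2) • f)) * cdef P hn (oneSet ((0 : ZMod 2) • f)) :=
        cdef_symmDiff P hn _ _ _ (by simp [oneSet])
      show r _ = 1
      rw [e, cdef_mul_self P hn, map_one]
    · simpa using hf

theorem coinvRel_le_killed : S.coinvRel ≤ killed P hn r := by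
  refine iSup_le fun v => ?_
  rintro _ ⟨f, rfl⟩
  show r _ = 1
  have e : cdef P hn (oneSet (S.shiftFun v f)) = cdef P hn (oneSet f) :=
    cdef_translate P hn (-v) (by ext x; simp [oneSet, Sys.mem_translate])
  rw [cdef_symmDiff P hn (oneSet (S.shiftFun v f)) (oneSet f), e, cdef_mul_self P hn, map_one]
  ext x
  have : ∀ a b : ZMod 2, (a - b = 1) ↔ (a = 1 ∧ ¬b = 1 ∨ b = 1 ∧ ¬a = 1) := by decide
  exact this (S.shiftFun v f x) (f x)

/-- Killing the defects of functions spanning the coinvariants kills every defect. -/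
theorem cdef_killed {s : Set (LocallyConstant X (ZMod 2))}
    (hs : Submodule.span (ZMod 2) (S.coinvRel.mkQ '' s) = ⊤)
    (h : ∀ f ∈ s, r (cdef P hn (oneSet f)) = 1) (V : Clo X) : r (cdef P hn V) = 1 := by
  classical
  have top : killed P hn r = ⊤ := by
    refine top_le_iff.1 fun f _ => ?_
    have hf : f ∈ (Submodule.map S.coinvRel.mkQ (Submodule.span (ZMod 2) s)).comap S.coinvRel.mkQ := by
      rw [Submodule.mem_comap, Submodule.map_span, hs]; trivial
    rw [Submodule.comap_map_mkQ] at hf
    exact sup_le (coinvRel_le_killed P hn r) (Submodule.span_le.2 h) hf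
  have := (top ▸ Submodule.mem_top :
    LocallyConstant.charFn (ZMod 2) V.isClopen ∈ killed P hn r)
  have e : oneSet (LocallyConstant.charFn (ZMod 2) V.isClopen) = V := by
    ext x
    by_cases hx : x ∈ (V : Set X) <;> simp [oneSet, LocallyConstant.coe_charFn, hx]
  rwa [← e]

end Vale.Agent.P196.Full.Lift

namespace Vale.Agent.P196.Full

open Lift

variable {X : Type} [TopologicalSpace X] {n : ℕ} {S : Sys X}

/-- The universal group is finitely presented when it is so modulo the centre and the mod-2
coinvariants are finite-dimensional. -/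
theorem universalFP_of_proj (T : Tower S) (hn : 8 ≤ n) (hP : ProjFP S n)
    (hC : Module.Finite (ZMod 2) S.Coinv) : UniversalFP S n := by
  classical
  obtain ⟨k, ι, R₀, hR₀fin, hR₀, φ₀, hφ₀, hι, hrel⟩ := hP
  have hlift : ∀ w, FreeGroup.lift (fun i => (ι i).perm S) w = evalWord S (FreeGroup.map ι w) := by
    intro w
    exact DFunLike.congr_fun (FreeGroup.ext_hom (FreeGroup.lift fun i => (ι i).perm S)
      ((evalWord S).comp (FreeGroup.map ι)) fun i => by simp [evalWord]) w
  let ev : PresentedGroup R₀ →* Equiv.Perm (Pt X n) :=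
    PresentedGroup.toGroup (f := fun i => (ι i).perm S) fun w hw => (hlift w).trans (hR₀ w hw)
  have hev : ∀ w, ev (PresentedGroup.mk R₀ w) = evalWord S (FreeGroup.map ι w) := fun w => hlift w
  have heval : ∀ w, evalWord S (FreeGroup.map ι (FreeGroup.lift φ₀ w)) = evalWord S w := fun w =>
    DFunLike.congr_fun (FreeGroup.ext_hom
      (((evalWord S).comp (FreeGroup.map ι)).comp (FreeGroup.lift φ₀)) (evalWord S)
      fun g => by simpa [evalWord] using hφ₀ g) w
  let N : Subgroup (PresentedGroup R₀) := Subgroup.center _ ⊓ ev.ker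
  have : N.Normal := Subgroup.normal_inf_normal _ _
  let π : PresentedGroup R₀ →* PresentedGroup R₀ ⧸ N := QuotientGroup.mk' N
  let ψ : UGroup S n →* PresentedGroup R₀ ⧸ N :=
    PresentedGroup.toGroup (f := fun g => π (PresentedGroup.mk R₀ (φ₀ g))) fun w hw => by
      have e : FreeGroup.lift (fun g => π (PresentedGroup.mk R₀ (φ₀ g))) =
          (π.comp (PresentedGroup.mk R₀)).comp (FreeGroup.lift φ₀) :=
        FreeGroup.ext_hom _ _ fun g => by simp
      rw [e]
      refine (QuotientGroup.eq_one_iff _).2 ⟨hrel w hw, ?_⟩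
      show ev _ = 1
      refine (hev _).trans ?_
      rw [heval, evalWord_eq_one_of_urel hw]
  let P : Proj (UGroup S n) (PresentedGroup R₀) (PresentedGroup R₀ ⧸ N) :=
    { π := π
      ψ := ψ
      surj := QuotientGroup.mk'_surjective N
      central := fun z hz h =>
        (Subgroup.mem_center_iff.1 ((QuotientGroup.eq_one_iff z).1 hz).1 h).symm }
  let evq : PresentedGroup R₀ ⧸ N →* Equiv.Perm (Pt X n) :=
    QuotientGroup.lift N ev inf_le_right
  have hψ : evq.comp ψ = ueval S :=
    PresentedGroup.ext fun g => by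
      show evq (ψ (PresentedGroup.of g)) = ueval S (ugen S g)
      simp only [ψ, PresentedGroup.toGroup.of, ueval_ugen]
      exact (hev _).trans (hφ₀ g)
  have evP : ∀ z u, P.π z = P.ψ u → ev z = ueval S u := fun z u e => by
    rw [← hψ]; exact congrArg evq e
  choose φ hφ using fun g => PresentedGroup.mk_surjective R₀ (lift3 P g)
  have hev3 : ∀ g, evalWord S (FreeGroup.map ι (φ g)) = g.perm S := fun g => by
    rw [← hev, hφ, evP _ _ (π_lift3 P hn g), ueval_ugen]
  obtain ⟨s, hs⟩ := hC.fg_top
  choose rep hrep using fun c : S.Coinv => S.coinvRel.mkQ_surjective c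
  choose wd hwd using fun f => PresentedGroup.mk_surjective R₀ (cdef P hn (oneSet f))
  let R : Set (FreeGroup (Fin k)) :=
    R₀ ∪ Set.range (fun i => (φ (ι i))⁻¹ * FreeGroup.of i) ∪ wd '' (rep '' (s : Set S.Coinv))
  refine ⟨k, ι, R, (hR₀fin.union (Set.finite_range _)).union ((s.finite_toSet.image _).image _),
    ?_, φ, hev3, fun i => Subgroup.subset_normalClosure (Or.inl (Or.inr ⟨i, rfl⟩)), fun w hw => ?_⟩
  · rintro w ((hw | ⟨i, rfl⟩) | ⟨f, -, rfl⟩)
    · exact hR₀ w hw
    · simp only [map_mul, map_inv, hev3]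
      simp [evalWord]
    · rw [← hev, hwd, evP (u := 1) _ (by rw [π_cdef, map_one]), map_one]
  · let r : PresentedGroup R₀ →* PresentedGroup R :=
      QuotientGroup.lift _ (PresentedGroup.mk R) (Subgroup.normalClosure_le_normal fun w hw =>
        (QuotientGroup.eq_one_iff w).2 (Subgroup.subset_normalClosure (Or.inl (Or.inl hw))))
    have hr : ∀ w, r (PresentedGroup.mk R₀ w) = PresentedGroup.mk R w := fun w => rfl
    have hkill : ∀ V, r (cdef P hn V) = 1 := by
      refine cdef_killed P hn r (s := rep '' (s : Set S.Coinv)) ?_ ?_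
      · rw [Set.image_image]
        simpa [hrep] using hs
      · intro f hf
        rw [← hwd, hr]
        exact (QuotientGroup.eq_one_iff _).2
          (Subgroup.subset_normalClosure (Or.inr ⟨f, hf, rfl⟩))
    have e : (PresentedGroup.mk R₀).comp (FreeGroup.lift φ) = FreeGroup.lift (lift3 P) :=
      FreeGroup.ext_hom _ _ fun g => by simp [hφ]
    refine (QuotientGroup.eq_one_iff _).1 ?_
    show PresentedGroup.mk R (FreeGroup.lift φ w) = 1
    rw [← hr, show PresentedGroup.mk R₀ (FreeGroup.lift φ w) = FreeGroup.lift (lift3 P) w from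
      DFunLike.congr_fun e w]
    exact lift3_urel P hn r T hkill hw

end Vale.Agent.P196.Full
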