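import Vale.Agent.P196.Full.Universal.Frame

/-!
# P196: a presentation of the alternating group by all three-cycles
-/

namespace Vale.Agent.P196.Full.Lift

open Equiv

variable {α : Type*} [DecidableEq α]

/-- Three distinct points. -/
def D3 (a b c : α) : Prop := a ≠ b ∧ a ≠ c ∧ b ≠ c

instance (a b c : α) : Decidable (D3 a b c) := inferInstanceAs (Decidable (_ ∧ _))

theorem D3.map {a b c : α} (h : D3 a b c) (σ : Perm α) : D3 (σ a) (σ b) (σ c) :=
  ⟨fun e => h.1 (σ.injective e), fun e => h.2.1 (σ.injective e), fun e => h.2.2 (σ.injective e)⟩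

theorem D3.rotate {a b c : α} (h : D3 a b c) : D3 b c a := ⟨h.2.2, h.1.symm, h.2.1.symm⟩

theorem D3.flip {a b c : α} (h : D3 a b c) : D3 a c b := ⟨h.2.1, h.1, h.2.2.symm⟩

theorem cyc3_rotate {a b c : α} (h : D3 a b c) : cyc3 a b c = cyc3 b c a := by
  refine Equiv.ext fun x => ?_
  by_cases ha : x = a
  · subst ha; rw [cyc3_fst h.1 h.2.1, cyc3_trd]
  by_cases hb : x = b
  · subst hb; rw [cyc3_snd h.2.1 h.2.2, cyc3_fst h.2.2 h.1.symm]
  by_cases hc : x = c
  · subst hc; rw [cyc3_trd, cyc3_snd h.1.symm h.2.1.symm]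
  rw [cyc3_of_ne ha hb hc, cyc3_of_ne hb hc ha]

theorem cyc3_inv {a b c : α} (h : D3 a b c) : (cyc3 a b c)⁻¹ = cyc3 a c b := by
  refine inv_eq_of_mul_eq_one_right (Equiv.ext fun x => ?_)
  rw [Perm.mul_apply, Perm.one_apply]
  by_cases ha : x = a
  · subst ha; rw [cyc3_fst h.2.1 h.1, cyc3_trd]
  by_cases hc : x = c
  · subst hc; rw [cyc3_snd h.1 h.2.2.symm, cyc3_snd h.2.1 h.2.2]
  by_cases hb : x = b
  · subst hb; rw [cyc3_trd, cyc3_fst h.1 h.2.1]
  rw [cyc3_of_ne ha hc hb, cyc3_of_ne ha hb hc]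

theorem cyc3_mul_self {a b c : α} (h : D3 a b c) : cyc3 a b c * cyc3 a b c = cyc3 a c b := by
  refine Equiv.ext fun x => ?_
  rw [Perm.mul_apply]
  by_cases ha : x = a
  · subst ha; rw [cyc3_fst h.1 h.2.1, cyc3_snd h.2.1 h.2.2, cyc3_fst h.2.1 h.1]
  by_cases hc : x = c
  · subst hc; rw [cyc3_trd, cyc3_fst h.1 h.2.1, cyc3_snd h.1 h.2.2.symm]
  by_cases hb : x = b
  · subst hb; rw [cyc3_snd h.2.1 h.2.2, cyc3_trd, cyc3_trd]
  rw [cyc3_of_ne ha hb hc, cyc3_of_ne ha hb hc, cyc3_of_ne ha hc hb]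

theorem cyc3_cube {a b c : α} (h : D3 a b c) : cyc3 a b c ^ 3 = 1 := by
  rw [pow_three, cyc3_mul_self h, ← cyc3_inv h, mul_inv_cancel]

theorem cyc3_mem [Fintype α] {a b c : α} (h : D3 a b c) : cyc3 a b c ∈ alternatingGroup α := by
  rw [Perm.mem_alternatingGroup, cyc3, map_mul, Perm.sign_swap h.1, Perm.sign_swap h.2.2]
  decide

/-- The relations among lifts of three-cycles. -/
structure Axioms {E : Type*} [Group E] (T : α → α → α → E) : Prop where
  rot : ∀ {a b c}, D3 a b c → T a b c = T b c a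
  inv : ∀ {a b c}, D3 a b c → (T a b c)⁻¹ = T a c b
  cube : ∀ {a b c}, D3 a b c → T a b c * T a b c = T a c b
  conj : ∀ {a b c x y z}, D3 a b c → D3 x y z →
    T a b c * T x y z * (T a b c)⁻¹ = T (cyc3 a b c x) (cyc3 a b c y) (cyc3 a b c z)
  mul : ∀ {a b c d}, D3 a b c → d ≠ a → d ≠ b → d ≠ c → T a b d * T b c d = T a b c

section pres

variable {E : Type*} [Group E] (T : α → α → α → E)

/-- The graph generated by the cycles on `s`. -/
def graph (s : Finset α) : Subgroup (E × Perm α) :=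
  Subgroup.closure {p | ∃ a b c, D3 a b c ∧ a ∈ s ∧ b ∈ s ∧ c ∈ s ∧ p = (T a b c, cyc3 a b c)}

variable {T}

theorem graph_fix {s : Finset α} {p : E × Perm α} (hp : p ∈ graph T s) {x : α} (hx : x ∉ s) :
    p.2 x = x := by
  induction hp using Subgroup.closure_induction with
  | mem q hq =>
    obtain ⟨a, b, c, -, ha, hb, hc, rfl⟩ := hq
    exact cyc3_of_ne (fun e => hx (e ▸ ha)) (fun e => hx (e ▸ hb)) (fun e => hx (e ▸ hc))
  | one => rfl
  | mul q r _ _ hq hr => rw [Prod.snd_mul, Perm.mul_apply, hr, hq]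
  | inv q _ hq => rw [Prod.snd_inv]; exact (Equiv.symm_apply_eq _).2 hq.symm

theorem graph_mapsTo {s : Finset α} {p : E × Perm α} (hp : p ∈ graph T s) {x : α} (hx : x ∈ s) :
    p.2 x ∈ s := by
  by_contra h
  have h2 := graph_fix hp h
  exact h (by rw [p.2.injective h2]; exact hx)

/-- An element with trivial permutation is trivial. -/
theorem graph_trivial (hT : Axioms T) :
    ∀ s : Finset α, ∀ p ∈ graph T s, p.2 = 1 → p.1 = 1 := by
  intro s
  induction s using Finset.induction_on with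
  | empty =>
    intro p hp _
    have : graph T (∅ : Finset α) = ⊥ := by
      rw [graph, Subgroup.closure_eq_bot_iff]
      rintro _ ⟨a, b, c, -, ha, -⟩
      exact absurd ha (Finset.notMem_empty a)
    rw [this, Subgroup.mem_bot] at hp
    rw [hp]; rfl
  | @insert a s ha ih =>
    let g : α → α → α → E × Perm α := fun x y z => (T x y z, cyc3 x y z)
    -- elements fixing `a`, or a cycle through `a` times such an element
    let Ω : Set (E × Perm α) :=
      {p | p ∈ graph T s ∨ ∃ b ∈ s, ∃ d ∈ s, b ≠ d ∧ ∃ k ∈ graph T s, p = g a b d * k}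
    have gmem : ∀ {x y z}, D3 x y z → x ∈ s → y ∈ s → z ∈ s → g x y z ∈ graph T s :=
      fun h hx hy hz => Subgroup.subset_closure ⟨_, _, _, h, hx, hy, hz, rfl⟩
    have hd3 : ∀ {b d}, b ∈ s → d ∈ s → b ≠ d → D3 a b d := fun hb hd hne =>
      ⟨fun e => ha (e ▸ hb), fun e => ha (e ▸ hd), hne⟩
    -- changing the third point
    have third : ∀ {b c d}, b ∈ s → c ∈ s → d ∈ s → b ≠ c → b ≠ d →
        ∃ k ∈ graph T s, g a b c = g a b d * k := by
      intro b c d hb hc hd hbc hbd
      by_cases hcd : c = d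
      · exact ⟨1, one_mem _, by rw [hcd, mul_one]⟩
      refine ⟨g b c d, gmem ⟨hbc, hbd, hcd⟩ hb hc hd, ?_⟩
      refine Prod.ext (hT.mul (hd3 hb hc hbc) (fun e => ha (e ▸ hd)) hbd.symm (Ne.symm hcd)).symm ?_
      exact (cyc3_mul (hd3 hb hc hbc).1 (hd3 hb hc hbc).2.1 hbc (fun e => ha (e ▸ hd)) hbd.symm
        (Ne.symm hcd)).symm
    have conjg : ∀ {x y z b d}, D3 x y z → D3 a b d → g x y z * g a b d =
        g (cyc3 x y z a) (cyc3 x y z b) (cyc3 x y z d) * g x y z := by
      intro x y z b d h h'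
      refine Prod.ext ?_ ?_
      · show T x y z * T a b d =
          T (cyc3 x y z a) (cyc3 x y z b) (cyc3 x y z d) * T x y z
        rw [← hT.conj h h', inv_mul_cancel_right]
      · show cyc3 x y z * cyc3 a b d =
          cyc3 (cyc3 x y z a) (cyc3 x y z b) (cyc3 x y z d) * cyc3 x y z
        rw [← conj_cyc3, inv_mul_cancel_right]
    have ginv : ∀ {x y z}, D3 x y z → (g x y z)⁻¹ = g x z y := fun h =>
      Prod.ext (hT.inv h) (cyc3_inv h)
    -- multiplication by the generators avoiding `a`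
    have avoid : ∀ k ∈ graph T s, ∀ p ∈ Ω, k * p ∈ Ω := by
      intro k hk
      have one : ∀ {x y z}, D3 x y z → x ∈ s → y ∈ s → z ∈ s → ∀ p ∈ Ω, g x y z * p ∈ Ω := by
        intro x y z h hx hy hz p hp
        rcases hp with hp | ⟨b, hb, d, hd, hbd, k', hk', rfl⟩
        · exact Or.inl (mul_mem (gmem h hx hy hz) hp)
        · have hfix : cyc3 x y z a = a :=
            cyc3_of_ne (fun e => ha (e ▸ hx)) (fun e => ha (e ▸ hy)) (fun e => ha (e ▸ hz))
          refine Or.inr ⟨_, graph_mapsTo (gmem h hx hy hz) hb, _,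
            graph_mapsTo (gmem h hx hy hz) hd, fun e => hbd ((cyc3 x y z).injective e),
            g x y z * k', mul_mem (gmem h hx hy hz) hk', ?_⟩
          rw [← mul_assoc, conjg h (hd3 hb hd hbd), hfix, mul_assoc]
      induction hk using Subgroup.closure_induction_left with
      | one => intro p hp; rwa [one_mul]
      | mul_left q hq r _ hr =>
        obtain ⟨x, y, z, h, hx, hy, hz, rfl⟩ := hq
        intro p hp; rw [mul_assoc]; exact one h hx hy hz _ (hr p hp)
      | inv_mul_cancel q hq r _ hr =>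
        obtain ⟨x, y, z, h, hx, hy, hz, rfl⟩ := hq
        intro p hp
        rw [mul_assoc, show ((T x y z, cyc3 x y z) : E × Perm α)⁻¹ = g x z y from ginv h]
        exact one h.flip hx hz hy _ (hr p hp)
    -- multiplication by the cycles through `a`
    have through : ∀ {u w}, u ∈ s → w ∈ s → u ≠ w → ∀ p ∈ Ω, g a u w * p ∈ Ω := by
      intro u w hu hw huw p hp
      rcases hp with hp | ⟨b, hb, d, hd, hbd, k, hk, rfl⟩
      · exact Or.inr ⟨u, hu, w, hw, huw, p, hp, rfl⟩
      rw [← mul_assoc]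
      by_cases hbu : b = u
      · subst hbu
        obtain ⟨k', hk', e⟩ := third hb hd hw hbd huw
        rw [e, ← mul_assoc, show g a b w * g a b w = g a w b from Prod.ext (hT.cube (hd3 hb hw huw))
          (cyc3_mul_self (hd3 hb hw huw)), mul_assoc]
        exact Or.inr ⟨w, hw, b, hb, huw.symm, k' * k, mul_mem hk' hk, rfl⟩
      by_cases hbw : b = w
      · subst hbw
        obtain ⟨k', hk', e⟩ := third hb hd hu hbd hbu
        rw [e, ← mul_assoc, ← ginv (hd3 hu hb huw), mul_inv_cancel, one_mul]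
        exact Or.inl (mul_mem hk' hk)
      · obtain ⟨k', hk', e⟩ := third hb hd hu hbd hbu
        rw [e, ← mul_assoc, conjg (hd3 hu hw huw) (hd3 hb hu hbu),
          cyc3_fst (hd3 hu hw huw).1 (hd3 hu hw huw).2.1,
          cyc3_of_ne (fun (e' : b = a) => ha (e' ▸ hb)) hbu hbw,
          cyc3_snd (hd3 hu hw huw).2.1 huw, mul_assoc, mul_assoc]
        exact avoid _ (gmem ⟨Ne.symm hbu, huw, hbw⟩ hu hb hw) _
          (Or.inr ⟨u, hu, w, hw, huw, k' * k, mul_mem hk' hk, rfl⟩)
    -- every generator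
    have gen : ∀ {x y z}, D3 x y z → x ∈ insert a s → y ∈ insert a s → z ∈ insert a s →
        ∀ p ∈ Ω, g x y z * p ∈ Ω := by
      intro x y z h hx hy hz
      have mem : ∀ {v}, v ∈ insert a s → v ≠ a → v ∈ s := fun hv hne =>
        (Finset.mem_insert.1 hv).resolve_left hne
      have rot : ∀ {x y z}, D3 x y z → g x y z = g y z x := fun h =>
        Prod.ext (hT.rot h) (cyc3_rotate h)
      by_cases hxa : x = a
      · subst hxa
        exact through (mem hy h.1.symm) (mem hz h.2.1.symm) h.2.2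
      by_cases hya : y = a
      · subst hya
        rw [rot h]
        exact through (mem hz h.2.2.symm) (mem hx hxa) h.2.1.symm
      by_cases hza : z = a
      · subst hza
        rw [rot h, rot h.rotate]
        exact through (mem hx hxa) (mem hy hya) h.1
      exact fun p hp => avoid _ (gmem h (mem hx hxa) (mem hy hya) (mem hz hza)) p hp
    have all : ∀ p ∈ graph T (insert a s), p ∈ Ω := by
      intro p hp
      induction hp using Subgroup.closure_induction_left with
      | one => exact Or.inl (one_mem _)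
      | mul_left q hq r _ hr =>
        obtain ⟨x, y, z, h, hx, hy, hz, rfl⟩ := hq
        exact gen h hx hy hz _ hr
      | inv_mul_cancel q hq r _ hr =>
        obtain ⟨x, y, z, h, hx, hy, hz, rfl⟩ := hq
        rw [show ((T x y z, cyc3 x y z) : E × Perm α)⁻¹ = g x z y from ginv h]
        exact gen h.flip hx hz hy _ hr
    intro p hp h1
    rcases all p hp with h | ⟨b, hb, d, hd, hbd, k, hk, rfl⟩
    · exact ih p h h1
    · exfalso
      have e := congrArg (fun σ : Perm α => σ a) h1
      simp only [g, Prod.snd_mul, Perm.mul_apply, Perm.one_apply, graph_fix hk ha,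
        cyc3_fst (hd3 hb hd hbd).1 (hd3 hb hd hbd).2.1] at e
      exact ha (e ▸ hb)

/-- A word in the three-cycles with trivial permutation gives the trivial element. -/
theorem word_trivial [Fintype α] (hT : Axioms T) {G : Type*} [Group G] (A : G →* E)
    (B : G →* Perm α) (S : Set G)
    (hS : ∀ x ∈ S, ∃ a b c, D3 a b c ∧ A x = T a b c ∧ B x = cyc3 a b c) {w : G}
    (hw : w ∈ Subgroup.closure S) (h : B w = 1) : A w = 1 := by
  refine graph_trivial hT Finset.univ (A w, B w) ?_ h
  clear h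
  induction hw using Subgroup.closure_induction with
  | mem x hx =>
    obtain ⟨a, b, c, hd, hA, hB⟩ := hS x hx
    exact Subgroup.subset_closure ⟨a, b, c, hd, Finset.mem_univ _, Finset.mem_univ _,
      Finset.mem_univ _, by rw [hA, hB]⟩
  | one => rw [map_one, map_one]; exact one_mem _
  | mul x y _ _ hx hy => rw [map_mul, map_mul]; exact mul_mem hx hy
  | inv x _ hx => rw [map_inv, map_inv]; exact inv_mem hx

end pres

end Vale.Agent.P196.Full.Lift
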