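import Vale.Agent.P196.Full.Lift.Central.Theta

/-!
# P196: the normalised lifts of three-cycles and their defect

Auxiliary points do not matter, so the lifts are equivariant; their defect from a presentation of
the alternating group is one central involution per homomorphism.
-/

namespace Vale.Agent.P196.Full.Lift

open scoped commutatorElement

variable {U H Q : Type*} [Group U] [Group H] [Group Q] (P : Proj U H Q)
variable {α : Type*} [Fintype α] [DecidableEq α]

/-- Auxiliary points for the cycle `c, a, d`. -/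
def Aux (c a d b e : α) : Prop :=
  (b ≠ c ∧ b ≠ a ∧ b ≠ d) ∧ (e ≠ c ∧ e ≠ a ∧ e ≠ d) ∧ b ≠ e

theorem Aux.map {β : Type*} {c a d b e : α} (h : Aux c a d b e) {f : α → β}
    (hf : Function.Injective f) : Aux (f c) (f a) (f d) (f b) (f e) :=
  ⟨⟨hf.ne h.1.1, hf.ne h.1.2.1, hf.ne h.1.2.2⟩, ⟨hf.ne h.2.1.1, hf.ne h.2.1.2.1, hf.ne h.2.1.2.2⟩,
    hf.ne h.2.2⟩

theorem exists_aux (hα : 8 ≤ Fintype.card α) (c a d : α) : ∃ b e, Aux c a d b e := by
  obtain ⟨b, hb⟩ := exists_fresh {c, a, d}
    (lt_of_le_of_lt Finset.card_le_three (by omega))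
  obtain ⟨e, he⟩ := exists_fresh {c, a, d, b}
    (lt_of_le_of_lt Finset.card_le_four (by omega))
  simp only [Finset.mem_insert, Finset.mem_singleton, not_or] at hb he
  exact ⟨b, e, hb, ⟨he.1, he.2.1, he.2.2.1⟩, Ne.symm he.2.2.2⟩

/-- An even permutation with prescribed values at four points. -/
theorem exists_alt (hα : 8 ≤ Fintype.card α) {k : ℕ} (hk : k ≤ 4) {f g : Fin k → α}
    (hf : Function.Injective f) (hg : Function.Injective g) :
    ∃ w : alternatingGroup α, ∀ i, (w : Equiv.Perm α) (f i) = g i := by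
  classical
  let e : {x // x ∈ Set.range f} ≃ {x // x ∈ Set.range g} :=
    (Equiv.ofInjective f hf).symm.trans (Equiv.ofInjective g hg)
  have he : ∀ i, e.extendSubtype (f i) = g i := fun i => by
    rw [Equiv.extendSubtype_apply_of_mem e _ ⟨i, rfl⟩]
    simp [e, Equiv.ofInjective_symm_apply]
  rcases Int.units_eq_one_or (Equiv.Perm.sign e.extendSubtype) with h | h
  · exact ⟨⟨e.extendSubtype, h⟩, he⟩
  obtain ⟨x, hx⟩ := exists_fresh (Finset.univ.image g)
    (lt_of_le_of_lt Finset.card_image_le (by rw [Finset.card_univ, Fintype.card_fin]; omega))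
  obtain ⟨y, hy⟩ := exists_fresh (insert x (Finset.univ.image g))
    (lt_of_le_of_lt (Finset.card_insert_le _ _) (lt_of_le_of_lt
      (Nat.succ_le_succ Finset.card_image_le) (by rw [Finset.card_univ, Fintype.card_fin]; omega)))
  simp only [Finset.mem_insert, Finset.mem_image, Finset.mem_univ, true_and, not_or,
    not_exists] at hx hy
  refine ⟨⟨Equiv.swap x y * e.extendSubtype, ?_⟩, fun i => ?_⟩
  · rw [Equiv.Perm.mem_alternatingGroup, map_mul, h, Equiv.Perm.sign_swap (Ne.symm hy.1)]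
    decide
  · rw [Equiv.Perm.mul_apply, he, Equiv.swap_apply_of_ne_of_ne (hx i) (hy.2 i)]

variable (E : alternatingGroup α →* U)

/-- The lift of a three-cycle, for some auxiliary points. -/
noncomputable def tau (c a d : α) : H := by
  classical
  exact if h : ∃ be : α × α, Aux c a d be.1 be.2 then θaux P E c a d h.choose.1 h.choose.2 else 1

theorem tau_eq (hα : 8 ≤ Fintype.card α) {c a d b e : α} (h : D3 c a d) (hbe : Aux c a d b e) :
    tau P E c a d = θaux P E c a d b e := by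
  have hex : ∃ be : α × α, Aux c a d be.1 be.2 := ⟨(b, e), hbe⟩
  rw [tau, dif_pos hex]
  exact θaux_move P E hα h hex.choose_spec.1 hex.choose_spec.2.1 hex.choose_spec.2.2
    hbe.1 hbe.2.1 hbe.2.2

theorem π_tau (hα : 8 ≤ Fintype.card α) {c a d : α} (h : D3 c a d) :
    P.π (tau P E c a d) = P.ψ (E (alt3 c a d)) := by
  obtain ⟨b, e, hbe⟩ := exists_aux hα c a d
  rw [tau_eq P E hα h hbe, π_θaux P E h hbe.1 hbe.2.1 hbe.2.2]

/-- Naturality along injections of the points. -/
theorem tau_map {β : Type*} [Fintype β] [DecidableEq β] (E' : alternatingGroup β →* U) (f : α → β)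
    (hf : Function.Injective f)
    (hE : ∀ a b c, D3 a b c → E' (alt3 (f a) (f b) (f c)) = E (alt3 a b c))
    (hα : 8 ≤ Fintype.card α) {c a d : α} (h : D3 c a d) :
    tau P E' (f c) (f a) (f d) = tau P E c a d := by
  obtain ⟨b, e, hbe⟩ := exists_aux hα c a d
  rw [tau_eq P E' (hα.trans (Fintype.card_le_of_injective f hf))
    (b := f b) (e := f e) ⟨hf.ne h.1, hf.ne h.2.1, hf.ne h.2.2⟩ (hbe.map hf),
    tau_eq P E hα h hbe]
  simp only [θaux]
  rw [hE _ _ _ ⟨hbe.1.2.1.symm, h.1.symm, hbe.1.1⟩, hE _ _ _ ⟨h.2.1, hbe.2.1.1.symm, hbe.2.1.2.2.symm⟩]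

theorem tau_conj (hα : 8 ≤ Fintype.card α) (w : alternatingGroup α) {c a d : α} (h : D3 c a d)
    {k : H} (hk : P.π k = P.ψ (E w)) :
    k * tau P E c a d * k⁻¹ = tau P E ((w : Equiv.Perm α) c) ((w : Equiv.Perm α) a)
      ((w : Equiv.Perm α) d) := by
  obtain ⟨b, e, hbe⟩ := exists_aux hα c a d
  rw [tau_eq P E hα h hbe, tau_eq P E hα (h.map _) (hbe.map (w : Equiv.Perm α).injective)]
  simp only [θaux]
  rw [P.conj_γ _ _ _ hk]
  simp only [← map_inv, ← map_mul]
  rw [conj_alt3 _ ⟨hbe.1.2.1.symm, h.1.symm, hbe.1.1⟩,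
    conj_alt3 _ ⟨h.2.1, hbe.2.1.1.symm, hbe.2.1.2.2.symm⟩]

theorem tau_inv (hα : 8 ≤ Fintype.card α) {c a d : α} (h : D3 c a d) :
    (tau P E c a d)⁻¹ = tau P E c d a := by
  obtain ⟨b, e, hbe⟩ := exists_aux hα c a d
  have hbe' : Aux c d a e b :=
    ⟨⟨hbe.2.1.1, hbe.2.1.2.2, hbe.2.1.2.1⟩, ⟨hbe.1.1, hbe.1.2.2, hbe.1.2.1⟩, hbe.2.2.symm⟩
  rw [tau_eq P E hα h hbe, tau_eq P E hα h.flip hbe']
  simp only [θaux, P.inv_γ]
  rw [alt3_rotate (a := c) (b := d) (c := e) ⟨h.2.1, hbe.2.1.1.symm, hbe.2.1.2.2.symm⟩,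
    ← alt3_rotate (a := c) (b := a) (c := b) ⟨h.1, hbe.1.1.symm, hbe.1.2.1.symm⟩]

theorem tau_rot (hα : 8 ≤ Fintype.card α) {c a d : α} (h : D3 c a d) :
    tau P E c a d = tau P E a d c := by
  have e := tau_conj P E hα (alt3 c a d) h (P.π_L _)
  have hc : Commute (tau P E c a d) (P.L (E (alt3 c a d))) :=
    P.commute_congr ((P.π_L _).trans (π_tau P E hα h).symm) (Commute.refl _)
  rw [hc.symm.eq, mul_inv_cancel_right, alt3_val h, cyc3_fst h.1 h.2.1, cyc3_snd h.2.1 h.2.2,
    cyc3_trd] at e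
  exact e

/-- A lift of an element commuting with a perfect image commutes with the lifts of the image. -/
theorem commute_lift_alt3 (hα : 8 ≤ Fintype.card α) {c a d : α} (h : D3 c a d) {x : U}
    (hx : ∀ p q r, D3 p q r → Commute (E (alt3 p q r)) x) {k k' : H}
    (hk : P.π k = P.ψ (E (alt3 c a d))) (hk' : P.π k' = P.ψ x) : Commute k k' := by
  obtain ⟨b, e, hbe⟩ := exists_aux hα c a d
  refine P.commute_lifts (u := E (alt3 a b c)) (v := E (alt3 c d e)) ?_ hk'
    (hx _ _ _ ⟨hbe.1.2.1.symm, h.1.symm, hbe.1.1⟩)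
    (hx _ _ _ ⟨h.2.1, hbe.2.1.1.symm, hbe.2.1.2.2.symm⟩)
  rw [hk, ← map_commutatorElement, alt3_commutator h hbe.1 hbe.2.1 hbe.2.2]

/-- The normalised lift, of order dividing three. -/
noncomputable def theta (c a d : α) : H := tau P E c a d ^ 4

theorem alt3_pow_three {c a d : α} (h : D3 c a d) : alt3 c a d ^ 3 = 1 :=
  Subtype.ext (by rw [SubgroupClass.coe_pow, alt3_val h, cyc3_cube h]; rfl)

theorem π_theta (hα : 8 ≤ Fintype.card α) {c a d : α} (h : D3 c a d) :
    P.π (theta P E c a d) = P.ψ (E (alt3 c a d)) := by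
  rw [theta, map_pow, π_tau P E hα h, ← map_pow, ← map_pow, pow_succ, alt3_pow_three h, one_mul]

theorem theta_map {β : Type*} [Fintype β] [DecidableEq β] (E' : alternatingGroup β →* U)
    (f : α → β) (hf : Function.Injective f)
    (hE : ∀ a b c, D3 a b c → E' (alt3 (f a) (f b) (f c)) = E (alt3 a b c))
    (hα : 8 ≤ Fintype.card α) {c a d : α} (h : D3 c a d) :
    theta P E' (f c) (f a) (f d) = theta P E c a d := by
  rw [theta, theta, tau_map P E E' f hf hE hα h]

theorem theta_conj (hα : 8 ≤ Fintype.card α) (w : alternatingGroup α) {c a d : α} (h : D3 c a d)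
    {k : H} (hk : P.π k = P.ψ (E w)) :
    k * theta P E c a d * k⁻¹ = theta P E ((w : Equiv.Perm α) c) ((w : Equiv.Perm α) a)
      ((w : Equiv.Perm α) d) := by
  rw [theta, theta, ← tau_conj P E hα w h hk, conj_pow]

theorem tau_pow_six (hα : 8 ≤ Fintype.card α) {c a d : α} (h : D3 c a d) :
    tau P E c a d ^ 6 = 1 := by
  have hz : P.π (tau P E c a d ^ 3) = 1 := by
    rw [map_pow, π_tau P E hα h, ← map_pow, ← map_pow, alt3_pow_three h, map_one, map_one]
  obtain ⟨w, hw⟩ := exists_alt hα (k := 3) (by omega) (f := ![c, a, d]) (g := ![c, d, a])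
    (by intro i j; fin_cases i <;> fin_cases j <;> simp [h.1, h.2.1, h.2.2, h.1.symm, h.2.1.symm, h.2.2.symm])
    (by intro i j; fin_cases i <;> fin_cases j <;> simp [h.1, h.2.1, h.2.2, h.1.symm, h.2.1.symm, h.2.2.symm])
  have e := tau_conj P E hα w h (P.π_L _)
  have hc : Commute (tau P E c a d ^ 3) (P.L (E w)) := P.central _ hz _
  have e2 : tau P E c a d ^ 3 = (tau P E c a d ^ 3)⁻¹ := by
    conv_rhs => rw [← inv_pow, tau_inv P E hα h]
    have h0 : (w : Equiv.Perm α) c = c := hw 0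
    have h1 : (w : Equiv.Perm α) a = d := hw 1
    have h2 : (w : Equiv.Perm α) d = a := hw 2
    rw [h0, h1, h2] at e
    rw [← e, conj_pow, hc.symm.eq, mul_inv_cancel_right]
  calc tau P E c a d ^ 6 = tau P E c a d ^ 3 * tau P E c a d ^ 3 := by rw [← pow_add]
    _ = 1 := mul_eq_one_iff_eq_inv.2 e2

theorem theta_inv (hα : 8 ≤ Fintype.card α) {c a d : α} (h : D3 c a d) :
    (theta P E c a d)⁻¹ = theta P E c d a := by
  rw [theta, theta, ← inv_pow, tau_inv P E hα h]

theorem theta_rot (hα : 8 ≤ Fintype.card α) {c a d : α} (h : D3 c a d) :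
    theta P E c a d = theta P E a d c := by
  rw [theta, theta, tau_rot P E hα h]

theorem theta_cube (hα : 8 ≤ Fintype.card α) {c a d : α} (h : D3 c a d) :
    theta P E c a d * theta P E c a d = theta P E c d a := by
  rw [← theta_inv P E hα h, eq_inv_iff_mul_eq_one, theta, ← pow_add, ← pow_add,
    show 4 + 4 + 4 = 6 * 2 from rfl, pow_mul, tau_pow_six P E hα h, one_pow]

/-- The defect of the lifts at four points. -/
noncomputable def defect (a b c d : α) : H :=
  theta P E a b d * theta P E b c d * theta P E a c b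

/-- Four distinct points. -/
def D4 (a b c d : α) : Prop := D3 a b c ∧ d ≠ a ∧ d ≠ b ∧ d ≠ c

theorem D4.injective {a b c d : α} (h : D4 a b c d) : Function.Injective ![a, b, c, d] := by
  obtain ⟨⟨h1, h2, h3⟩, h4, h5, h6⟩ := h
  intro i j
  fin_cases i <;> fin_cases j <;>
    simp [h1, h2, h3, h4, h5, h6, h1.symm, h2.symm, h3.symm, h4.symm, h5.symm, h6.symm]

theorem D4.tris {a b c d : α} (h : D4 a b c d) : D3 a b d ∧ D3 b c d ∧ D3 a c b :=
  ⟨⟨h.1.1, h.2.1.symm, h.2.2.1.symm⟩, ⟨h.1.2.2, h.2.2.1.symm, h.2.2.2.symm⟩, h.1.flip⟩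

theorem π_defect (hα : 8 ≤ Fintype.card α) {a b c d : α} (h : D4 a b c d) :
    P.π (defect P E a b c d) = 1 := by
  obtain ⟨h1, h2, h3⟩ := h.tris
  have e : alt3 a b d * alt3 b c d * alt3 a c b = 1 := by
    rw [← alt3_inv h.1, mul_inv_eq_one]
    exact Subtype.ext (by
      rw [Subgroup.coe_mul, alt3_val h1, alt3_val h2, alt3_val h.1]
      exact cyc3_mul h.1.1 h.1.2.1 h.1.2.2 h.2.1 h.2.2.1 h.2.2.2)
  rw [defect, map_mul, map_mul, π_theta P E hα h1, π_theta P E hα h2, π_theta P E hα h3,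
    ← map_mul, ← map_mul, ← map_mul, ← map_mul, e, map_one, map_one]

theorem defect_conj (hα : 8 ≤ Fintype.card α) {a b c d a' b' c' d' : α} (h : D4 a b c d)
    (h' : D4 a' b' c' d') : defect P E a b c d = defect P E a' b' c' d' := by
  obtain ⟨w, hw⟩ := exists_alt hα (k := 4) le_rfl h.injective h'.injective
  obtain ⟨h1, h2, h3⟩ := h.tris
  have e : P.L (E w) * defect P E a b c d * (P.L (E w))⁻¹ = defect P E a' b' c' d' := by
    have ea : (w : Equiv.Perm α) a = a' := hw 0
    have eb : (w : Equiv.Perm α) b = b' := hw 1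
    have ec : (w : Equiv.Perm α) c = c' := hw 2
    have ed : (w : Equiv.Perm α) d = d' := hw 3
    rw [defect, defect, ← conj_mul, ← conj_mul, theta_conj P E hα w h1 (P.π_L _),
      theta_conj P E hα w h2 (P.π_L _), theta_conj P E hα w h3 (P.π_L _), ea, eb, ec, ed]
  rwa [← (P.central _ (π_defect P E hα h) _).eq, mul_inv_cancel_right] at e

theorem defect_mul_self (hα : 8 ≤ Fintype.card α) {a b c d : α} (h : D4 a b c d) :
    defect P E a b c d * defect P E a b c d = 1 := by
  have h' : D4 c b a d := ⟨⟨h.1.2.2.symm, h.1.2.1.symm, h.1.1.symm⟩, h.2.2.2, h.2.2.1, h.2.1⟩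
  obtain ⟨h1, h2, h3⟩ := h.tris
  have hz := P.central _ (π_defect P E hα h)
  have e : defect P E c b a d = (defect P E a b c d)⁻¹ := by
    have e1 : theta P E c b d = (theta P E b c d)⁻¹ := by
      rw [theta_inv P E hα h2, theta_rot P E hα h'.tris.1]
    have e2 : theta P E b a d = (theta P E a b d)⁻¹ := by
      rw [theta_inv P E hα h1, theta_rot P E hα h'.tris.2.1]
    have e3 : theta P E c a b = (theta P E a c b)⁻¹ := by
      rw [theta_inv P E hα h3, theta_rot P E hα h'.tris.2.2]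
    rw [defect, e1, e2, e3, eq_inv_iff_mul_eq_one]
    calc (theta P E b c d)⁻¹ * (theta P E a b d)⁻¹ * (theta P E a c b)⁻¹ * defect P E a b c d
        = (theta P E b c d)⁻¹ * (theta P E a b d)⁻¹ *
            (defect P E a b c d * (theta P E a c b)⁻¹) := by rw [(hz _).eq, mul_assoc]
      _ = 1 := by rw [defect]; group
  rw [defect_conj P E hα h' h] at e
  exact mul_eq_one_iff_eq_inv.2 e

/-- Naturality of the defect. -/
theorem defect_map {β : Type*} [Fintype β] [DecidableEq β] (E' : alternatingGroup β →* U)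
    (f : α → β) (hf : Function.Injective f)
    (hE : ∀ a b c, D3 a b c → E' (alt3 (f a) (f b) (f c)) = E (alt3 a b c))
    (hα : 8 ≤ Fintype.card α) {a b c d : α} (h : D4 a b c d) :
    defect P E' (f a) (f b) (f c) (f d) = defect P E a b c d := by
  rw [defect, defect, theta_map P E E' f hf hE hα h.tris.1, theta_map P E E' f hf hE hα h.tris.2.1,
    theta_map P E E' f hf hE hα h.tris.2.2]

/-- A homomorphism killing the defect makes the lifts satisfy the presentation. -/
theorem axioms_theta (hα : 8 ≤ Fintype.card α) {H' : Type*} [Group H'] (r : H →* H')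
    (hr : ∀ a b c d, D4 a b c d → r (defect P E a b c d) = 1) :
    Axioms fun a b c => r (theta P E a b c) where
  rot h := congrArg r (theta_rot P E hα h)
  inv h := by rw [← map_inv, theta_inv P E hα h]
  cube h := by rw [← map_mul, theta_cube P E hα h]
  conj {a b c x y z} h h' := by
    rw [← map_inv, ← map_mul, ← map_mul, theta_conj P E hα (alt3 a b c) h' (π_theta P E hα h),
      alt3_val h]
  mul {a b c d} h h1 h2 h3 := by
    have e := hr a b c d ⟨h, h1, h2, h3⟩
    rw [defect, ← theta_inv P E hα h, map_mul, map_inv, mul_inv_eq_one, map_mul] at e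
    exact e

end Vale.Agent.P196.Full.Lift
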