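import Vale.Agent.P196.Full.Universal.Conj
import Vale.Agent.P196.Full.Lift.Central.Sigma

/-!
# P196: the lifts of the generators and their defect

A clopen set with one offset in every colour carries an alternating group on the colours. Its
lifts depend only on the three offsets of a cycle; its defect only on the clopen set, additively and
invariantly under translation.
-/

namespace Vale.Agent.P196.Full.Lift

open scoped commutatorElement

variable {X : Type} [TopologicalSpace X] {n : ℕ} {S : Sys X}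

/-- The generator of three colours. -/
def genC (o : Fin n → Lat) (V : Clo X) (a b c : Fin n) (h : D3 a b c) : Gen X n :=
  ⟨V, (o a, a), (o b, b), (o c, c), h.1, h.2.2, h.2.1⟩

/-- One offset in every colour. -/
def colFrame (o : Fin n → Lat) : Finset (Off n) := Finset.univ.image fun c => (o c, c)

theorem colFrame_separated (o : Fin n → Lat) (V : Set X) : S.Separated V (colFrame o) := by
  intro p hp q hq hpq hcol
  simp only [colFrame, Finset.mem_image, Finset.mem_univ, true_and] at hp hq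
  obtain ⟨a, rfl⟩ := hp
  obtain ⟨b, rfl⟩ := hq
  simp only at hcol
  exact absurd (by rw [hcol]) hpq

variable (S)

/-- The subgroup of the colour frame. -/
def colourSub (o : Fin n → Lat) (V : Clo X) : Subgroup (UGroup S n) :=
  Subgroup.closure (ugen S '' frameGens V (colFrame o))

/-- The amplified copies of the colour frame. -/
def colEmb (o : Fin n → Lat) (V : Set X) : (Fin n × ↥V) ↪ Pt X n where
  toFun z := (S.sh (o z.1) z.2, z.1)
  inj' := by
    rintro ⟨c, x⟩ ⟨d, y⟩ e
    simp only [Prod.mk.injEq] at e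
    obtain ⟨e, rfl⟩ := e
    exact Prod.ext rfl (Subtype.ext ((S.sh (o c)).injective e))

/-- The permutation given by a permutation of the colours. -/
noncomputable def colPerm (o : Fin n → Lat) (V : Set X) :
    Equiv.Perm (Fin n) →* Equiv.Perm (Pt X n) :=
  (Equiv.Perm.viaEmbeddingHom (colEmb S o V)).comp
    { toFun := fun σ => Equiv.prodCongr σ (Equiv.refl _)
      map_one' := Equiv.ext fun _ => rfl
      map_mul' := fun _ _ => Equiv.ext fun _ => rfl }

variable {S}

theorem perm_genC (o : Fin n → Lat) (V : Clo X) {a b c : Fin n} (h : D3 a b c) :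
    (genC o V a b c h).perm S = colPerm S o (V : Set X) (cyc3 a b c) := by
  refine Equiv.ext fun z => ?_
  show S.cycFun (V : Set X) (o a, a) (o b, b) (o c, c) z = _
  obtain ⟨x, col⟩ := z
  by_cases hx : S.sh (-(o col)) x ∈ (V : Set X)
  · have hxe : x = S.sh (o col) (S.sh (-(o col)) x) := by
      rw [S.sh_sh, add_neg_cancel, S.sh_zero]
    have he : colPerm S o (V : Set X) (cyc3 a b c) (x, col) =
        (S.sh (o (cyc3 a b c col)) (S.sh (-(o col)) x), cyc3 a b c col) := by
      conv_lhs => rw [hxe]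
      exact Equiv.Perm.viaEmbedding_apply _ (colEmb S o (V : Set X)) (col, ⟨_, hx⟩)
    rw [he, S.sh_sh, ← sub_eq_add_neg]
    have t : Sys.Tri (o a, a) (o b, b) (o c, c) := ⟨h.1, h.2.2, h.2.1⟩
    by_cases ha : col = a
    · subst ha
      rw [S.cycFun_fst rfl hx, cyc3_fst h.1 h.2.1]
    by_cases hb : col = b
    · subst hb
      rw [S.cycFun_snd t rfl hx, cyc3_snd h.2.1 h.2.2]
    by_cases hc : col = c
    · subst hc
      rw [S.cycFun_trd t rfl hx, cyc3_trd]
    rw [cyc3_of_ne ha hb hc, S.cycFun_none (fun e => absurd e ha) (fun e => absurd e hb)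
      (fun e => absurd e hc), sub_self, S.sh_zero]
  · have he : colPerm S o (V : Set X) (cyc3 a b c) (x, col) = (x, col) := by
      refine Equiv.Perm.viaEmbedding_apply_of_notMem _ (colEmb S o (V : Set X)) _ ?_
      rintro ⟨⟨d, y⟩, e⟩
      obtain ⟨e1, e2⟩ := Prod.mk.inj e
      subst e2 e1
      exact hx (by rw [S.sh_neg_cancel]; exact y.2)
    rw [he]
    refine S.cycFun_none (fun e => ?_) (fun e => ?_) (fun e => ?_) <;>
      exact fun hU => hx (by simp only at e; subst e; exact hU)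

theorem genC_mem (o : Fin n → Lat) (V : Clo X) {a b c : Fin n} (h : D3 a b c) :
    ugen S (genC o V a b c h) ∈ colourSub S o V :=
  Subgroup.subset_closure ⟨_, ⟨rfl, by simp [genC, colFrame], by simp [genC, colFrame],
    by simp [genC, colFrame]⟩, rfl⟩

theorem colourSub_eq_one (o : Fin n → Lat) (V : Clo X) {u : UGroup S n} (hu : u ∈ colourSub S o V)
    (h : ueval S u = 1) : u = 1 := by
  have e : colourSub S o V = (Subgroup.closure (FreeGroup.of '' frameGens V (colFrame o))).map
      (PresentedGroup.mk {w : FreeGroup (Gen X n) | URel S w}) := by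
    rw [MonoidHom.map_closure, ← Set.image_comp]; rfl
  rw [e, Subgroup.mem_map] at hu
  obtain ⟨w, hw, rfl⟩ := hu
  exact mk_eq_one_of_urel (URel.frame V _ (colFrame_separated o _) w hw h)

theorem colourSub_ext (o : Fin n → Lat) (V : Clo X) {u u' : UGroup S n} (hu : u ∈ colourSub S o V)
    (hu' : u' ∈ colourSub S o V) (h : ueval S u = ueval S u') : u = u' :=
  mul_inv_eq_one.1 (colourSub_eq_one o V (mul_mem hu (inv_mem hu'))
    (by rw [map_mul, map_inv, h, mul_inv_cancel]))

theorem map_colourSub_ge (o : Fin n → Lat) (V : Clo X) :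
    (alternatingGroup (Fin n)).map (colPerm S o (V : Set X)) ≤ (colourSub S o V).map (ueval S) := by
  rw [← Equiv.Perm.closure_three_cycles_eq_alternating, MonoidHom.map_closure, Subgroup.closure_le]
  rintro _ ⟨σ, hσ, rfl⟩
  obtain ⟨a, b, c, h1, h2, h3, rfl⟩ := exists_cyc3 hσ
  have h : D3 a b c := ⟨h1, h2, h3⟩
  exact ⟨_, genC_mem o V h, by rw [ueval_ugen, perm_genC]⟩

variable (S) in
/-- The homomorphism of the alternating group of the colours. -/
noncomputable def colHom (o : Fin n → Lat) (V : Clo X) :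
    alternatingGroup (Fin n) →* UGroup S n where
  toFun σ := Classical.choose (map_colourSub_ge (S := S) o V (Subgroup.mem_map_of_mem _ σ.2))
  map_one' := by
    obtain ⟨h1, h2⟩ := Classical.choose_spec (map_colourSub_ge (S := S) o V
      (Subgroup.mem_map_of_mem _ (1 : alternatingGroup (Fin n)).2))
    exact colourSub_eq_one o V h1 (h2.trans (map_one (colPerm S o (V : Set X))))
  map_mul' σ τ := by
    obtain ⟨h1, h2⟩ := Classical.choose_spec (map_colourSub_ge (S := S) o V
      (Subgroup.mem_map_of_mem _ (σ * τ).2))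
    obtain ⟨s1, s2⟩ := Classical.choose_spec (map_colourSub_ge (S := S) o V
      (Subgroup.mem_map_of_mem _ σ.2))
    obtain ⟨t1, t2⟩ := Classical.choose_spec (map_colourSub_ge (S := S) o V
      (Subgroup.mem_map_of_mem _ τ.2))
    refine colourSub_ext o V h1 (mul_mem s1 t1) ?_
    rw [map_mul, s2, t2, h2]
    exact map_mul (colPerm S o (V : Set X)) _ _

theorem colHom_alt3 (o : Fin n → Lat) (V : Clo X) {a b c : Fin n} (h : D3 a b c) :
    colHom S o V (alt3 a b c) = ugen S (genC o V a b c h) := by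
  obtain ⟨h1, h2⟩ := Classical.choose_spec (map_colourSub_ge (S := S) o V
    (Subgroup.mem_map_of_mem _ (alt3 a b c).2))
  refine colourSub_ext o V h1 (genC_mem o V h) ?_
  rw [ueval_ugen, perm_genC, ← alt3_val h]
  exact h2

/-- The offsets of a generator, extended to all colours. -/
def sec (g : Gen X n) : Fin n → Lat := fun c =>
  if c = g.p.2 then g.p.1 else if c = g.q.2 then g.q.1 else if c = g.r.2 then g.r.1 else 0

theorem Gen.d3 (g : Gen X n) : D3 g.p.2 g.q.2 g.r.2 := ⟨g.tri.1, g.tri.2.2, g.tri.2.1⟩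

theorem genC_sec (g : Gen X n) : genC (sec g) g.U g.p.2 g.q.2 g.r.2 (Gen.d3 g) = g := by
  refine Gen.eq_mk rfl ?_ ?_ ?_ <;> refine Prod.ext ?_ rfl
  · simp [genC, sec]
  · simp [genC, sec, g.tri.1.symm]
  · simp [genC, sec, g.tri.2.1.symm, g.tri.2.2.symm]

variable {H Q : Type*} [Group H] [Group Q] (P : Proj (UGroup S n) H Q) (hn : 8 ≤ n)

/-- The lift of a generator. -/
noncomputable def lift3 (g : Gen X n) : H :=
  theta P (colHom S (sec g) g.U) g.p.2 g.q.2 g.r.2

include hn

theorem card8 : 8 ≤ Fintype.card (Fin n) := by simpa using hn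

theorem π_lift3 (g : Gen X n) : P.π (lift3 P g) = P.ψ (ugen S g) := by
  rw [lift3, π_theta P _ (card8 hn) (Gen.d3 g), colHom_alt3 _ _ (Gen.d3 g), genC_sec]

theorem θaux_congr {o o' : Fin n → Lat} (V : Clo X) {c a d b e : Fin n} (h : D3 c a d)
    (hbe : Aux c a d b e) (ho : o c = o' c ∧ o a = o' a ∧ o d = o' d ∧ o b = o' b ∧ o e = o' e) :
    θaux P (colHom S o V) c a d b e = θaux P (colHom S o' V) c a d b e := by
  have h1 : D3 a b c := ⟨hbe.1.2.1.symm, h.1.symm, hbe.1.1⟩
  have h2 : D3 c d e := ⟨h.2.1, hbe.2.1.1.symm, hbe.2.1.2.2.symm⟩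
  simp only [θaux, colHom_alt3 _ _ h1, colHom_alt3 _ _ h2]
  rw [show genC o V a b c h1 = genC o' V a b c h1 from Gen.eq_mk rfl (by simp [genC, ho])
      (by simp [genC, ho]) (by simp [genC, ho]),
    show genC o V c d e h2 = genC o' V c d e h2 from Gen.eq_mk rfl (by simp [genC, ho])
      (by simp [genC, ho]) (by simp [genC, ho])]

/-- The lifts depend only on the three offsets. -/
theorem theta_congr {o o' : Fin n → Lat} (V : Clo X) {c a d : Fin n} (h : D3 c a d)
    (hc : o c = o' c) (ha : o a = o' a) (hd : o d = o' d) :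
    theta P (colHom S o V) c a d = theta P (colHom S o' V) c a d := by
  have hα := card8 (n := n) hn
  obtain ⟨b, e, hbe⟩ := exists_aux hα c a d
  obtain ⟨b', hb'⟩ := exists_fresh {c, a, d, b, e}
    (lt_of_le_of_lt Finset.card_le_five (by omega))
  obtain ⟨e', he'⟩ := exists_fresh {c, a, d, b, e, b'}
    (lt_of_le_of_lt Finset.card_le_six (by omega))
  simp only [Finset.mem_insert, Finset.mem_singleton, not_or] at hb' he'
  have hbe' : Aux c a d b' e' :=
    ⟨⟨hb'.1, hb'.2.1, hb'.2.2.1⟩, ⟨he'.1, he'.2.1, he'.2.2.1⟩, Ne.symm he'.2.2.2.2.2⟩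
  let o₂ : Fin n → Lat := fun x => if x = b' ∨ x = e' then o' x else o x
  have out : ∀ x, x ≠ b' → x ≠ e' → o₂ x = o x := fun x h1 h2 => by simp [o₂, h1, h2]
  have e1 : tau P (colHom S o V) c a d = tau P (colHom S o₂ V) c a d := by
    rw [tau_eq P _ hα h hbe, tau_eq P _ hα h hbe]
    exact θaux_congr P hn V h hbe ⟨(out c (Ne.symm hb'.1) (Ne.symm he'.1)).symm,
      (out a (Ne.symm hb'.2.1) (Ne.symm he'.2.1)).symm,
      (out d (Ne.symm hb'.2.2.1) (Ne.symm he'.2.2.1)).symm,
      (out b (Ne.symm hb'.2.2.2.1) (Ne.symm he'.2.2.2.1)).symm,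
      (out e (Ne.symm hb'.2.2.2.2) (Ne.symm he'.2.2.2.2.1)).symm⟩
  have e2 : tau P (colHom S o' V) c a d = tau P (colHom S o₂ V) c a d := by
    rw [tau_eq P _ hα h hbe', tau_eq P _ hα h hbe']
    exact θaux_congr P hn V h hbe' ⟨hc.symm.trans (out c (Ne.symm hb'.1) (Ne.symm he'.1)).symm,
      ha.symm.trans (out a (Ne.symm hb'.2.1) (Ne.symm he'.2.1)).symm,
      hd.symm.trans (out d (Ne.symm hb'.2.2.1) (Ne.symm he'.2.2.1)).symm,
      by simp [o₂], by simp [o₂]⟩
  rw [theta, theta, e1, e2]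

theorem lift3_genC (o : Fin n → Lat) (V : Clo X) {c a d : Fin n} (h : D3 c a d) :
    lift3 P (genC o V c a d h) = theta P (colHom S o V) c a d :=
  theta_congr P hn V h (by simp [sec, genC]) (by simp [sec, genC, h.1.symm])
    (by simp [sec, genC, h.2.1.symm, h.2.2.symm])

/-- Lifts over disjoint sets commute. -/
theorem commute_disjoint (o : Fin n → Lat) {A B : Clo X} (hd : Disjoint (A : Set X) (B : Set X))
    {a b c p q r : Fin n} (h : D3 a b c) (h' : D3 p q r) {k k' : H}
    (hk : P.π k = P.ψ (colHom S o A (alt3 a b c))) (hk' : P.π k' = P.ψ (colHom S o B (alt3 p q r))) :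
    Commute k k' := by
  refine commute_lift_alt3 P _ (card8 hn) h (fun x y z hxyz => ?_) hk hk'
  rw [colHom_alt3 _ _ hxyz, colHom_alt3 _ _ h']
  refine ugen_commute _ _ (Set.disjoint_left.2 fun w hw hw' => ?_)
  obtain ⟨u, hu, hwu, hA⟩ := (Gen.mem_supp_iff _ _).1 hw
  obtain ⟨v, hv, hwv, hB⟩ := (Gen.mem_supp_iff _ _).1 hw'
  have hu' : u.1 = o u.2 := by rcases hu with rfl | rfl | rfl <;> rfl
  have hv' : v.1 = o v.2 := by rcases hv with rfl | rfl | rfl <;> rfl
  rw [hu', ← hwu] at hA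
  rw [hv', ← hwv] at hB
  exact Set.disjoint_left.1 hd hA hB

theorem theta_add (o : Fin n → Lat) {V A B : Clo X} (hd : Disjoint (A : Set X) (B : Set X))
    (hu : (V : Set X) = (A : Set X) ∪ (B : Set X)) {c a d : Fin n} (h : D3 c a d) :
    theta P (colHom S o V) c a d = theta P (colHom S o A) c a d * theta P (colHom S o B) c a d := by
  have hα := card8 (n := n) hn
  obtain ⟨b, e, hbe⟩ := exists_aux hα c a d
  have h1 : D3 a b c := ⟨hbe.1.2.1.symm, h.1.symm, hbe.1.1⟩
  have h2 : D3 c d e := ⟨h.2.1, hbe.2.1.1.symm, hbe.2.1.2.2.symm⟩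
  have split : ∀ {x y z : Fin n}, D3 x y z → colHom S o V (alt3 x y z) =
      colHom S o A (alt3 x y z) * colHom S o B (alt3 x y z) := fun hxyz => by
    rw [colHom_alt3 _ _ hxyz, colHom_alt3 _ _ hxyz, colHom_alt3 _ _ hxyz,
      ugen_add (genC o V _ _ _ hxyz) A B hd hu]
    rfl
  have ht : tau P (colHom S o V) c a d = tau P (colHom S o A) c a d * tau P (colHom S o B) c a d := by
    rw [tau_eq P _ hα h hbe, tau_eq P _ hα h hbe, tau_eq P _ hα h hbe]
    simp only [θaux]
    rw [P.γ_eq (u := colHom S o V (alt3 a b c)) (v := colHom S o V (alt3 c d e))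
      (h := P.L (colHom S o A (alt3 a b c)) * P.L (colHom S o B (alt3 a b c)))
      (k := P.L (colHom S o A (alt3 c d e)) * P.L (colHom S o B (alt3 c d e)))
      (by rw [map_mul, P.π_L, P.π_L, ← map_mul, split h1])
      (by rw [map_mul, P.π_L, P.π_L, ← map_mul, split h2])]
    exact Proj.commutator_mul_mul (commute_disjoint P hn o hd h1 h2 (P.π_L _) (P.π_L _))
      (commute_disjoint P hn o hd h2 h1 (P.π_L _) (P.π_L _)).symm
      (commute_disjoint P hn o hd h1 h1 (P.π_L _) (P.π_L _))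
      (commute_disjoint P hn o hd h2 h2 (P.π_L _) (P.π_L _))
  rw [theta, theta, theta, ht,
    (commute_disjoint P hn o hd h h (π_tau P _ hα h) (π_tau P _ hα h)).mul_pow]

theorem lift3_add (g : Gen X n) (A B : Clo X) (hd : Disjoint (A : Set X) (B : Set X))
    (hu : (g.U : Set X) = (A : Set X) ∪ (B : Set X)) :
    lift3 P g = lift3 P (g.withU A) * lift3 P (g.withU B) :=
  theta_add P hn (sec g) hd hu (Gen.d3 g)

/-- Moving the origin of a colour frame. -/
theorem theta_move (o : Fin n → Lat) (v : Lat) {V V' : Clo X}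
    (hV : (V' : Set X) = S.translate v V) {c a d : Fin n} (h : D3 c a d) :
    theta P (colHom S (fun x => o x - v) V') c a d = theta P (colHom S o V) c a d := by
  refine theta_map P (colHom S o V) (colHom S (fun x => o x - v) V') id Function.injective_id
    (fun x y z hxyz => ?_) (card8 hn) h
  simp only [id]
  rw [colHom_alt3 _ _ hxyz, colHom_alt3 _ _ hxyz, ← ugen_move (genC o V x y z hxyz) v]
  congr 1
  exact Gen.eq_mk hV rfl rfl rfl

theorem lift3_shift (g h : Gen X n) (v : Lat) (hU : (h.U : Set X) = S.translate v g.U)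
    (hp : h.p = (g.p.1 - v, g.p.2)) (hq : h.q = (g.q.1 - v, g.q.2))
    (hr : h.r = (g.r.1 - v, g.r.2)) : lift3 P h = lift3 P g := by
  rw [show h = genC (fun x => sec g x - v) h.U g.p.2 g.q.2 g.r.2 (Gen.d3 g) from
      Gen.eq_mk rfl (by simp [genC, sec, hp]) (by simp [genC, sec, hq, g.tri.1.symm])
        (by simp [genC, sec, hr, g.tri.2.1.symm, g.tri.2.2.symm]),
    lift3_genC P hn, theta_move P hn (sec g) v hU (Gen.d3 g)]
  rfl

theorem lift3_comm (g h : Gen X n) (hd : Disjoint (g.supp S) (h.supp S)) :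
    Commute (lift3 P g) (lift3 P h) := by
  have hα := card8 (n := n) hn
  have hg := Gen.d3 g
  obtain ⟨b, hb⟩ := exists_fresh {g.p.2, g.q.2, g.r.2, h.p.2, h.q.2, h.r.2}
    (lt_of_le_of_lt Finset.card_le_six (by omega))
  obtain ⟨e, he⟩ := exists_fresh {g.p.2, g.q.2, g.r.2, h.p.2, h.q.2, h.r.2, b}
    (lt_of_le_of_lt ((Finset.card_insert_le _ _).trans
      (Nat.succ_le_succ Finset.card_le_six)) (by omega))
  simp only [Finset.mem_insert, Finset.mem_singleton, not_or] at hb he
  have hbe : Aux g.p.2 g.q.2 g.r.2 b e :=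
    ⟨⟨hb.1, hb.2.1, hb.2.2.1⟩, ⟨he.1, he.2.1, he.2.2.1⟩, Ne.symm he.2.2.2.2.2.2⟩
  have h1 : D3 g.q.2 b g.p.2 := ⟨hbe.1.2.1.symm, hg.1.symm, hbe.1.1⟩
  have h2 : D3 g.p.2 g.r.2 e := ⟨hg.2.1, hbe.2.1.1.symm, hbe.2.1.2.2.symm⟩
  have fix : ∀ {x y z : Fin n} (hxyz : D3 x y z), (∀ w, w = x ∨ w = y ∨ w = z →
      (w = g.p.2 ∨ w = g.q.2 ∨ w = g.r.2) ∨ (w ≠ h.p.2 ∧ w ≠ h.q.2 ∧ w ≠ h.r.2)) →
      Commute (colHom S (sec g) g.U (alt3 x y z)) (ugen S h) := by
    intro x y z hxyz hw
    rw [colHom_alt3 _ _ hxyz]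
    refine ugen_commute _ _ (Set.disjoint_left.2 fun t ht ht' => ?_)
    obtain ⟨u, hu, htu, hA⟩ := (Gen.mem_supp_iff _ _).1 ht
    have hu1 : u.1 = sec g u.2 := by rcases hu with rfl | rfl | rfl <;> rfl
    have hu2 : u.2 = x ∨ u.2 = y ∨ u.2 = z := by rcases hu with rfl | rfl | rfl <;> simp [genC]
    rcases hw _ hu2 with hw | hw
    · refine Set.disjoint_left.1 hd ((Gen.mem_supp_iff _ _).2 ?_) ht'
      rcases hw with hw | hw | hw
      · exact ⟨g.p, Or.inl rfl, htu.trans hw, by rw [hu1, hw] at hA; simpa [sec, genC] using hA⟩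
      · exact ⟨g.q, Or.inr (Or.inl rfl), htu.trans hw,
          by rw [hu1, hw] at hA; simpa [sec, genC, g.tri.1.symm] using hA⟩
      · exact ⟨g.r, Or.inr (Or.inr rfl), htu.trans hw,
          by rw [hu1, hw] at hA; simpa [sec, genC, g.tri.2.1.symm, g.tri.2.2.symm] using hA⟩
    · obtain ⟨v, hv, htv, -⟩ := (Gen.mem_supp_iff _ _).1 ht'
      rw [← htu, htv] at hw
      rcases hv with rfl | rfl | rfl
      exacts [hw.1 rfl, hw.2.1 rfl, hw.2.2 rfl]
  have c : Commute (tau P (colHom S (sec g) g.U) g.p.2 g.q.2 g.r.2)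
      (tau P (colHom S (sec h) h.U) h.p.2 h.q.2 h.r.2) := by
    refine P.commute_lifts (u := colHom S (sec g) g.U (alt3 g.q.2 b g.p.2))
      (v := colHom S (sec g) g.U (alt3 g.p.2 g.r.2 e)) (x := ugen S h) ?_ ?_ (fix h1 ?_) (fix h2 ?_)
    · rw [π_tau P _ hα hg, ← map_commutatorElement, alt3_commutator hg hbe.1 hbe.2.1 hbe.2.2]
    · rw [π_tau P _ hα (Gen.d3 h), colHom_alt3 _ _ (Gen.d3 h), genC_sec]
    · rintro w (rfl | rfl | rfl)
      exacts [Or.inl (Or.inr (Or.inl rfl)), Or.inr ⟨hb.2.2.2.1, hb.2.2.2.2.1, hb.2.2.2.2.2⟩,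
        Or.inl (Or.inl rfl)]
    · rintro w (rfl | rfl | rfl)
      exacts [Or.inl (Or.inl rfl), Or.inl (Or.inr (Or.inr rfl)),
        Or.inr ⟨he.2.2.2.1, he.2.2.2.2.1, he.2.2.2.2.2.1⟩]
  exact c.pow_pow 4 4

theorem exists_four (s : Finset (Fin n)) (hs : s.card ≤ 4) :
    ∃ a b c d, D4 a b c d ∧ a ∉ s ∧ b ∉ s ∧ c ∉ s ∧ d ∉ s := by
  have hα := card8 (n := n) hn
  obtain ⟨a, ha⟩ := exists_fresh s (by omega)
  obtain ⟨b, hb⟩ := exists_fresh (insert a s) (lt_of_le_of_lt (Finset.card_insert_le _ _) (by omega))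
  obtain ⟨c, hc⟩ := exists_fresh (insert b (insert a s))
    (lt_of_le_of_lt ((Finset.card_insert_le _ _).trans (Nat.succ_le_succ (Finset.card_insert_le _ _)))
      (by omega))
  obtain ⟨d, hd⟩ := exists_fresh (insert c (insert b (insert a s)))
    (lt_of_le_of_lt ((Finset.card_insert_le _ _).trans (Nat.succ_le_succ
      ((Finset.card_insert_le _ _).trans (Nat.succ_le_succ (Finset.card_insert_le _ _))))) (by omega))
  simp only [Finset.mem_insert, not_or] at hb hc hd
  exact ⟨a, b, c, d, ⟨⟨Ne.symm hb.1, Ne.symm hc.2.1, Ne.symm hc.1⟩, hd.2.2.1, hd.2.1, hd.1⟩,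
    ha, hb.2, hc.2.2, hd.2.2.2⟩

theorem defect_agree {o o' : Fin n → Lat} (V : Clo X) {a b c d : Fin n} (h : D4 a b c d)
    (ho : o a = o' a ∧ o b = o' b ∧ o c = o' c ∧ o d = o' d) :
    defect P (colHom S o V) a b c d = defect P (colHom S o' V) a b c d := by
  obtain ⟨ha, hb, hc, hd⟩ := ho
  rw [defect, defect, theta_congr P hn V h.tris.1 ha hb hd, theta_congr P hn V h.tris.2.1 hb hc hd,
    theta_congr P hn V h.tris.2.2 ha hc hb]

/-- The defect does not depend on the offsets. -/
theorem defect_congr (o o' : Fin n → Lat) (V : Clo X) {a b c d : Fin n} (h : D4 a b c d) :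
    defect P (colHom S o V) a b c d = defect P (colHom S o' V) a b c d := by
  have hα := card8 (n := n) hn
  obtain ⟨a', b', c', d', h', ha', hb', hc', hd'⟩ :=
    exists_four hn {a, b, c, d} Finset.card_le_four
  let o₂ : Fin n → Lat := fun x => if x ∈ ({a, b, c, d} : Finset (Fin n)) then o' x else o x
  calc defect P (colHom S o V) a b c d = defect P (colHom S o V) a' b' c' d' :=
        defect_conj P _ hα h h'
    _ = defect P (colHom S o₂ V) a' b' c' d' := defect_agree P hn V h'
        ⟨(if_neg ha').symm, (if_neg hb').symm, (if_neg hc').symm, (if_neg hd').symm⟩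
    _ = defect P (colHom S o₂ V) a b c d := defect_conj P _ hα h' h
    _ = defect P (colHom S o' V) a b c d := defect_agree P hn V h
        (by simp [o₂])

/-- The defect of a clopen set. -/
noncomputable def cdef (V : Clo X) : H :=
  defect P (colHom S (fun _ => 0) V) ⟨0, by omega⟩ ⟨1, by omega⟩ ⟨2, by omega⟩ ⟨3, by omega⟩

omit P in
theorem d4_base : D4 (⟨0, by omega⟩ : Fin n) ⟨1, by omega⟩ ⟨2, by omega⟩ ⟨3, by omega⟩ := by
  simp [D4, D3, Fin.ext_iff]

theorem defect_eq_cdef (o : Fin n → Lat) (V : Clo X) {a b c d : Fin n} (h : D4 a b c d) :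
    defect P (colHom S o V) a b c d = cdef P hn V :=
  (defect_congr P hn o (fun _ => 0) V h).trans (defect_conj P _ (card8 hn) h (d4_base hn))

theorem π_cdef (V : Clo X) : P.π (cdef P hn V) = 1 := π_defect P _ (card8 hn) (d4_base hn)

theorem cdef_mul_self (V : Clo X) : cdef P hn V * cdef P hn V = 1 :=
  defect_mul_self P _ (card8 hn) (d4_base hn)

theorem cdef_add {V A B : Clo X} (hd : Disjoint (A : Set X) (B : Set X))
    (hu : (V : Set X) = (A : Set X) ∪ (B : Set X)) :
    cdef P hn V = cdef P hn A * cdef P hn B := by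
  have hα := card8 (n := n) hn
  obtain ⟨h1, h2, h3⟩ := (d4_base (n := n) hn).tris
  have c := fun {x y z p q r : Fin n} (h : D3 x y z) (h' : D3 p q r) =>
    commute_disjoint P hn (fun _ => 0) hd h h' (π_theta P _ hα h) (π_theta P _ hα h')
  rw [cdef, cdef, cdef, defect, defect, defect, theta_add P hn _ hd hu h1, theta_add P hn _ hd hu h2,
    theta_add P hn _ hd hu h3, (c h2 h1).symm.mul_mul_mul_comm,
    ((c h3 h1).symm.mul_left (c h3 h2).symm).mul_mul_mul_comm]

theorem cdef_translate (v : Lat) {V V' : Clo X} (hV : (V' : Set X) = S.translate v V) :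
    cdef P hn V' = cdef P hn V := by
  have h := d4_base (n := n) hn
  rw [← defect_eq_cdef P hn (fun _ => (0 : Lat) - v) V' h]
  obtain ⟨h1, h2, h3⟩ := h.tris
  rw [cdef, defect, defect, theta_move P hn (fun _ => 0) v hV h1, theta_move P hn (fun _ => 0) v hV h2,
    theta_move P hn (fun _ => 0) v hV h3]

end Vale.Agent.P196.Full.Lift
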