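import Vale.Agent.P196.Full.Lift.Central.AltPres

/-!
# P196: canonical lifts of three-cycles to a central extension

For a homomorphism `E` of an alternating group to a group `U` and a projective lift of `U` to `H`,
commutators of lifts give canonical lifts of the three-cycles.
-/

namespace Vale.Agent.P196.Full.Lift

open scoped commutatorElement

/-- A group `H` mapping centrally onto a quotient receiving `U`. -/
structure Proj (U H Q : Type*) [Group U] [Group H] [Group Q] where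
  /-- The projection. -/
  π : H →* Q
  /-- The projective lift. -/
  ψ : U →* Q
  surj : Function.Surjective π
  central : ∀ z, π z = 1 → ∀ h, Commute z h

variable {U H Q : Type*} [Group U] [Group H] [Group Q] (P : Proj U H Q)

namespace Proj

/-- Some lift. -/
noncomputable def L (u : U) : H := Function.surjInv P.surj (P.ψ u)

theorem π_L (u : U) : P.π (P.L u) = P.ψ u := Function.surjInv_eq P.surj _

theorem commute_congr {h h' k : H} (e : P.π h = P.π h') (hk : Commute h k) : Commute h' k := by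
  have hz : P.π (h⁻¹ * h') = 1 := by rw [map_mul, map_inv, e, inv_mul_cancel]
  have := hk.mul_left (P.central _ hz k)
  rwa [mul_inv_cancel_left] at this

theorem commutator_congr {h h' k k' : H} (e : P.π h = P.π h') (e' : P.π k = P.π k') :
    ⁅h, k⁆ = ⁅h', k'⁆ := by
  have hz : ∀ {a b : H}, P.π a = P.π b → ∀ c : H, ⁅a, c⁆ = ⁅b, c⁆ := by
    intro a b e c
    have h1 : P.π (b⁻¹ * a) = 1 := by rw [map_mul, map_inv, e, inv_mul_cancel]
    obtain ⟨z, rfl⟩ : ∃ z, a = b * z := ⟨b⁻¹ * a, by rw [mul_inv_cancel_left]⟩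
    rw [inv_mul_cancel_left] at h1
    have hc := (P.central z h1 c).eq
    rw [commutatorElement_def, commutatorElement_def, mul_inv_rev, mul_assoc b z, hc]
    group
  rw [hz e, ← commutatorElement_inv, hz e', commutatorElement_inv]

/-- The commutator of any lifts. -/
noncomputable def γ (u v : U) : H := ⁅P.L u, P.L v⁆

theorem γ_eq {u v : U} {h k : H} (e : P.π h = P.ψ u) (e' : P.π k = P.ψ v) : P.γ u v = ⁅h, k⁆ :=
  P.commutator_congr ((P.π_L u).trans e.symm) ((P.π_L v).trans e'.symm)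

theorem π_γ (u v : U) : P.π (P.γ u v) = P.ψ ⁅u, v⁆ := by
  rw [γ, map_commutatorElement, P.π_L, P.π_L, map_commutatorElement]

theorem inv_γ (u v : U) : (P.γ u v)⁻¹ = P.γ v u := by rw [γ, γ, commutatorElement_inv]

theorem conj_γ (w u v : U) {h : H} (e : P.π h = P.ψ w) :
    h * P.γ u v * h⁻¹ = P.γ (w * u * w⁻¹) (w * v * w⁻¹) := by
  rw [P.γ_eq (u := w * u * w⁻¹) (v := w * v * w⁻¹) (h := h * P.L u * h⁻¹) (k := h * P.L v * h⁻¹)
    (by simp [P.π_L, e]) (by simp [P.π_L, e]), γ, commutatorElement_def, commutatorElement_def]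
  group

/-- A lift of a commutator of elements commuting with `x` commutes with any lift of `x`. -/
theorem commute_γ {u v x : U} {h : H} (e : P.π h = P.ψ x) (hu : Commute u x) (hv : Commute v x) :
    Commute (P.γ u v) h := by
  have e1 := P.conj_γ x u v e
  rw [← hu.eq, ← hv.eq, mul_inv_cancel_right, mul_inv_cancel_right] at e1
  exact (mul_inv_eq_iff_eq_mul.1 e1).symm

theorem commute_lifts {u v x : U} {h k : H} (hk : P.π k = P.ψ ⁅u, v⁆) (e : P.π h = P.ψ x)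
    (hu : Commute u x) (hv : Commute v x) : Commute k h :=
  P.commute_congr ((P.π_γ u v).trans hk.symm) (P.commute_γ e hu hv)

/-- Commutators of products of commuting pairs split. -/
theorem commutator_mul_mul {G : Type*} [Group G] {x y z w : G} (hxw : Commute x w)
    (hyz : Commute y z) (hxy : Commute x y) (hzw : Commute z w) :
    ⁅x * y, z * w⁆ = ⁅x, z⁆ * ⁅y, w⁆ := by
  simp only [commutatorElement_def, mul_inv_rev]
  have h1 : Commute (y * w * y⁻¹) z⁻¹ :=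
    ((hyz.inv_right.mul_left hzw.symm.inv_right).mul_left hyz.inv_left.inv_right)
  have h2 : Commute (y * w * y⁻¹ * w⁻¹) x⁻¹ :=
    (((hxy.symm.inv_right.mul_left hxw.symm.inv_right).mul_left
      hxy.symm.inv_left.inv_right).mul_left hxw.symm.inv_left.inv_right)
  calc x * y * (z * w) * (y⁻¹ * x⁻¹) * (w⁻¹ * z⁻¹)
      = x * (y * z) * (w * y⁻¹) * (x⁻¹ * w⁻¹) * z⁻¹ := by group
    _ = x * (z * y) * (w * y⁻¹) * (w⁻¹ * x⁻¹) * z⁻¹ := by rw [hyz.eq, hxw.inv_inv.eq]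
    _ = x * z * ((y * w * y⁻¹ * w⁻¹) * x⁻¹) * z⁻¹ := by group
    _ = x * z * (x⁻¹ * (y * w * y⁻¹ * w⁻¹)) * z⁻¹ := by rw [h2.eq]
    _ = x * z * x⁻¹ * ((y * w * y⁻¹) * (w⁻¹ * z⁻¹)) := by group
    _ = x * z * x⁻¹ * ((y * w * y⁻¹) * (z⁻¹ * w⁻¹)) := by rw [hzw.symm.inv_inv.eq]
    _ = x * z * x⁻¹ * ((y * w * y⁻¹) * z⁻¹ * w⁻¹) := by group
    _ = x * z * x⁻¹ * (z⁻¹ * (y * w * y⁻¹) * w⁻¹) := by rw [h1.eq]
    _ = x * z * x⁻¹ * z⁻¹ * (y * w * y⁻¹ * w⁻¹) := by group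

end Proj

variable {α : Type*} [Fintype α] [DecidableEq α] (E : alternatingGroup α →* U)

/-- A three-cycle as an even permutation (the identity on degenerate data). -/
def alt3 (a b c : α) : alternatingGroup α :=
  if h : D3 a b c then ⟨cyc3 a b c, cyc3_mem h⟩ else 1

theorem alt3_val {a b c : α} (h : D3 a b c) : (alt3 a b c : Equiv.Perm α) = cyc3 a b c := by
  rw [alt3, dif_pos h]

theorem conj_alt3 (w : alternatingGroup α) {a b c : α} (h : D3 a b c) :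
    w * alt3 a b c * w⁻¹ =
      alt3 ((w : Equiv.Perm α) a) ((w : Equiv.Perm α) b) ((w : Equiv.Perm α) c) := by
  refine Subtype.ext ?_
  rw [Subgroup.coe_mul, Subgroup.coe_mul, Subgroup.coe_inv, alt3_val h, alt3_val (h.map _),
    conj_cyc3]

theorem alt3_rotate {a b c : α} (h : D3 a b c) : alt3 a b c = alt3 b c a :=
  Subtype.ext (by rw [alt3_val h, alt3_val h.rotate, cyc3_rotate h])

theorem alt3_inv {a b c : α} (h : D3 a b c) : (alt3 a b c)⁻¹ = alt3 a c b :=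
  Subtype.ext (by rw [Subgroup.coe_inv, alt3_val h, alt3_val h.flip, cyc3_inv h])

theorem commute_alt3 (w : alternatingGroup α) {a b c : α} (h : D3 a b c)
    (ha : (w : Equiv.Perm α) a = a) (hb : (w : Equiv.Perm α) b = b)
    (hc : (w : Equiv.Perm α) c = c) : Commute w (alt3 a b c) := by
  have := conj_alt3 w h
  rw [ha, hb, hc] at this
  exact mul_inv_eq_iff_eq_mul.1 this

theorem alt3_commutator {c a d b e : α} (h : D3 c a d) (hb : b ≠ c ∧ b ≠ a ∧ b ≠ d)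
    (he : e ≠ c ∧ e ≠ a ∧ e ≠ d) (hbe : b ≠ e) :
    ⁅alt3 a b c, alt3 c d e⁆ = alt3 c a d := by
  obtain ⟨hca, hcd, had⟩ := h
  have h1 : D3 a b c := ⟨hb.2.1.symm, hca.symm, hb.1⟩
  have h2 : D3 c d e := ⟨hcd, he.1.symm, he.2.2.symm⟩
  have hd : D3 c b a := ⟨hb.1.symm, hca, hb.2.1⟩
  rw [commutatorElement_def, mul_assoc (alt3 a b c), mul_assoc (alt3 a b c), alt3_inv h1,
    show alt3 a c b = alt3 c b a from alt3_rotate h1.flip, conj_alt3 _ hd]
  refine Subtype.ext (Equiv.ext fun x => ?_)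
  rw [Subgroup.coe_mul, Equiv.Perm.mul_apply, alt3_val h1, alt3_val ⟨hca, hcd, had⟩,
    alt3_val (hd.map _), alt3_val h2, cyc3_fst h2.1 h2.2.1,
    cyc3_of_ne hb.1 hb.2.2 hbe, cyc3_of_ne hca.symm had he.2.1.symm]
  simp only [cyc3, Equiv.Perm.mul_apply, Equiv.swap_apply_def]
  grind

theorem exists_fresh (s : Finset α) (h : s.card < Fintype.card α) : ∃ z, z ∉ s := by
  by_contra hall
  push Not at hall
  have : s = Finset.univ := Finset.eq_univ_iff_forall.2 hall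
  rw [this, Finset.card_univ] at h
  omega

/-- The lift of a three-cycle with auxiliary points `b`, `e`. -/
noncomputable def θaux (c a d b e : α) : H := P.γ (E (alt3 a b c)) (E (alt3 c d e))

theorem π_θaux {c a d b e : α} (h : D3 c a d) (hb : b ≠ c ∧ b ≠ a ∧ b ≠ d)
    (he : e ≠ c ∧ e ≠ a ∧ e ≠ d) (hbe : b ≠ e) :
    P.π (θaux P E c a d b e) = P.ψ (E (alt3 c a d)) := by
  rw [show θaux P E c a d b e = P.γ _ _ from rfl, P.π_γ, ← map_commutatorElement, alt3_commutator h hb he hbe]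

theorem θaux_move (hα : 8 ≤ Fintype.card α) {c a d b e b' e' : α} (h : D3 c a d)
    (hb : b ≠ c ∧ b ≠ a ∧ b ≠ d) (he : e ≠ c ∧ e ≠ a ∧ e ≠ d) (hbe : b ≠ e)
    (hb' : b' ≠ c ∧ b' ≠ a ∧ b' ≠ d) (he' : e' ≠ c ∧ e' ≠ a ∧ e' ≠ d) (hbe' : b' ≠ e') :
    θaux P E c a d b e = θaux P E c a d b' e' := by
  -- a three-cycle off the three points moves the auxiliary points
  have step : ∀ {b e x y z}, D3 x y z → (x ≠ c ∧ x ≠ a ∧ x ≠ d) → (y ≠ c ∧ y ≠ a ∧ y ≠ d) →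
      (z ≠ c ∧ z ≠ a ∧ z ≠ d) → (b ≠ c ∧ b ≠ a ∧ b ≠ d) → (e ≠ c ∧ e ≠ a ∧ e ≠ d) → b ≠ e →
      θaux P E c a d b e = θaux P E c a d (cyc3 x y z b) (cyc3 x y z e) := by
    intro b e x y z hxyz hx hy hz hb he hbe
    obtain ⟨s, hs⟩ := exists_fresh {x, y, z, c, a, d} (lt_of_le_of_lt Finset.card_le_six (by omega))
    simp only [Finset.mem_insert, Finset.mem_singleton, not_or] at hs
    obtain ⟨t, ht⟩ := exists_fresh {x, y, z, c, a, d, s}
      (lt_of_le_of_lt ((Finset.card_insert_le _ _).trans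
        (Nat.succ_le_succ Finset.card_le_six)) (by omega))
    simp only [Finset.mem_insert, Finset.mem_singleton, not_or] at ht
    have fix : ∀ {p q r}, D3 p q r → (p ≠ c ∧ p ≠ a ∧ p ≠ d) → (q ≠ c ∧ q ≠ a ∧ q ≠ d) →
        (r ≠ c ∧ r ≠ a ∧ r ≠ d) → Commute (alt3 p q r) (alt3 c a d) := by
      intro p q r hpqr hp hq hr
      refine commute_alt3 _ h ?_ ?_ ?_ <;> rw [alt3_val hpqr]
      exacts [cyc3_of_ne hp.1.symm hq.1.symm hr.1.symm, cyc3_of_ne hp.2.1.symm hq.2.1.symm hr.2.1.symm,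
        cyc3_of_ne hp.2.2.symm hq.2.2.symm hr.2.2.symm]
    have hsn : s ≠ c ∧ s ≠ a ∧ s ≠ d := ⟨hs.2.2.2.1, hs.2.2.2.2.1, hs.2.2.2.2.2⟩
    have htn : t ≠ c ∧ t ≠ a ∧ t ≠ d := ⟨ht.2.2.2.1, ht.2.2.2.2.1, ht.2.2.2.2.2.1⟩
    have c1 : Commute (E (alt3 y s x)) (E (alt3 c a d)) :=
      (fix ⟨Ne.symm hs.2.1, hxyz.1.symm, hs.1⟩ hy hsn hx).map E
    have c2 : Commute (E (alt3 x z t)) (E (alt3 c a d)) :=
      (fix ⟨hxyz.2.1, Ne.symm ht.1, Ne.symm ht.2.2.1⟩ hx hz htn).map E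
    have hcom := alt3_commutator (b := s) (e := t) hxyz ⟨hs.1, hs.2.1, hs.2.2.1⟩
      ⟨ht.1, ht.2.1, ht.2.2.1⟩ (Ne.symm ht.2.2.2.2.2.2)
    have hk : P.π (P.L (E (alt3 x y z))) = P.ψ ⁅E (alt3 y s x), E (alt3 x z t)⁆ := by
      rw [P.π_L, ← map_commutatorElement, hcom]
    have hc := P.commute_lifts hk (π_θaux P E h hb he hbe) c1 c2
    have e1 := P.conj_γ (E (alt3 x y z)) (E (alt3 a b c)) (E (alt3 c d e)) (P.π_L _)
    simp only [θaux] at hc
    rw [hc.eq, mul_inv_cancel_right] at e1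
    have f1 : ∀ {v}, (x ≠ v ∧ y ≠ v ∧ z ≠ v) → cyc3 x y z v = v := fun hv =>
      cyc3_of_ne hv.1.symm hv.2.1.symm hv.2.2.symm
    simp only [θaux]
    rw [e1]
    simp only [← map_inv, ← map_mul]
    rw [conj_alt3 _ ⟨hb.2.1.symm, h.1.symm, hb.1⟩, conj_alt3 _ ⟨h.2.1, he.1.symm, he.2.2.symm⟩,
      alt3_val hxyz, f1 ⟨hx.1, hy.1, hz.1⟩, f1 ⟨hx.2.1, hy.2.1, hz.2.1⟩, f1 ⟨hx.2.2, hy.2.2, hz.2.2⟩]
  -- moving one auxiliary point
  have moveb : ∀ {b b' e}, (b ≠ c ∧ b ≠ a ∧ b ≠ d) → (b' ≠ c ∧ b' ≠ a ∧ b' ≠ d) →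
      (e ≠ c ∧ e ≠ a ∧ e ≠ d) → b ≠ e → b' ≠ e →
      θaux P E c a d b e = θaux P E c a d b' e := by
    intro b b' e hb hb' he hbe hb'e
    by_cases hbb : b = b'
    · rw [hbb]
    obtain ⟨z, hz⟩ := exists_fresh {c, a, d, b, b', e}
      (lt_of_le_of_lt Finset.card_le_six (by omega))
    simp only [Finset.mem_insert, Finset.mem_singleton, not_or] at hz
    rw [step (x := b) (y := b') (z := z) ⟨hbb, Ne.symm hz.2.2.2.1, Ne.symm hz.2.2.2.2.1⟩ hb hb'
      ⟨hz.1, hz.2.1, hz.2.2.1⟩ hb he hbe, cyc3_fst hbb (Ne.symm hz.2.2.2.1),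
      cyc3_of_ne hbe.symm hb'e.symm (Ne.symm hz.2.2.2.2.2)]
  have movee : ∀ {b e e'}, (b ≠ c ∧ b ≠ a ∧ b ≠ d) → (e ≠ c ∧ e ≠ a ∧ e ≠ d) →
      (e' ≠ c ∧ e' ≠ a ∧ e' ≠ d) → b ≠ e → b ≠ e' →
      θaux P E c a d b e = θaux P E c a d b e' := by
    intro b e e' hb he he' hbe hbe'
    by_cases hee : e = e'
    · rw [hee]
    obtain ⟨z, hz⟩ := exists_fresh {c, a, d, b, e, e'}
      (lt_of_le_of_lt Finset.card_le_six (by omega))
    simp only [Finset.mem_insert, Finset.mem_singleton, not_or] at hz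
    rw [step (x := e) (y := e') (z := z) ⟨hee, Ne.symm hz.2.2.2.2.1, Ne.symm hz.2.2.2.2.2⟩ he he'
      ⟨hz.1, hz.2.1, hz.2.2.1⟩ hb he hbe, cyc3_fst hee (Ne.symm hz.2.2.2.2.1),
      cyc3_of_ne hbe hbe' (Ne.symm hz.2.2.2.1)]
  by_cases hbe2 : b' = e
  · obtain ⟨z, hz⟩ := exists_fresh {c, a, d, b, e, e'}
      (lt_of_le_of_lt Finset.card_le_six (by omega))
    simp only [Finset.mem_insert, Finset.mem_singleton, not_or] at hz
    have hzn : z ≠ c ∧ z ≠ a ∧ z ≠ d := ⟨hz.1, hz.2.1, hz.2.2.1⟩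
    rw [moveb hb hzn he hbe hz.2.2.2.2.1, movee hzn he he' hz.2.2.2.2.1 hz.2.2.2.2.2,
      moveb hzn hb' he' hz.2.2.2.2.2 hbe']
  · rw [moveb hb hb' he hbe hbe2, movee hb' he he' hbe2 hbe']

end Vale.Agent.P196.Full.Lift
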